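import Mathlib

/-!
# P045: a set of points met by every large uncovered remainder, by counting subsets
-/

open Finset
open scoped Classical

namespace Vale.Agent.P045

variable {P L : Type*} [DecidableEq P] [DecidableEq L]

/-- Two families of few large sets have a common hitting subset of `U`. -/
theorem exists_hitting (U : Finset P) (F₁ F₂ : Finset (Finset P)) (t₁ t₂ : ℕ)
    (hc₁ : 2 * #F₁ ≤ 2 ^ t₁) (hc₂ : 2 * #F₂ < 2 ^ t₂)
    (hsub : ∀ W ∈ F₁ ∪ F₂, W ⊆ U) (hs₁ : ∀ W ∈ F₁, t₁ ≤ #W) (hs₂ : ∀ W ∈ F₂, t₂ ≤ #W) :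
    ∃ X ⊆ U, ∀ W ∈ F₁ ∪ F₂, (X ∩ W).Nonempty := by
  by_contra hno
  push Not at hno
  have hcov : U.powerset ⊆ (F₁.biUnion fun W => (U \ W).powerset) ∪
      F₂.biUnion fun W => (U \ W).powerset := by
    intro X hX
    obtain ⟨W, hW, h0⟩ := hno X (mem_powerset.1 hX)
    have hmem : X ∈ (U \ W).powerset := mem_powerset.2 fun x hx => mem_sdiff.2
      ⟨mem_powerset.1 hX hx, fun hxW => (Finset.notMem_empty x) (h0 ▸ mem_inter.2 ⟨hx, hxW⟩)⟩
    rcases mem_union.1 hW with h | h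
    · exact mem_union_left _ (mem_biUnion.2 ⟨W, h, hmem⟩)
    · exact mem_union_right _ (mem_biUnion.2 ⟨W, h, hmem⟩)
  have hone : ∀ (F : Finset (Finset P)) (t : ℕ), F ⊆ F₁ ∪ F₂ → (∀ W ∈ F, t ≤ #W) →
      #(F.biUnion fun W => (U \ W).powerset) * 2 ^ t ≤ #F * 2 ^ #U := by
    intro F t hF hs
    refine (Nat.mul_le_mul_right _ card_biUnion_le).trans ?_
    rw [sum_mul, ← smul_eq_mul (a := #F), ← sum_const]
    refine sum_le_sum fun W hW => ?_
    rw [card_powerset, ← pow_add, card_sdiff_of_subset (hsub W (hF hW))]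
    refine Nat.pow_le_pow_right (by norm_num) ?_
    have := card_le_card (hsub W (hF hW))
    have := hs W hW
    omega
  have h1 := (card_le_card hcov).trans (card_union_le _ _)
  rw [card_powerset] at h1
  have hu : 0 < 2 ^ #U := by positivity
  have a1 := hone F₁ t₁ subset_union_left hs₁
  have a2 := hone F₂ t₂ subset_union_right hs₂
  set A := #(F₁.biUnion fun W => (U \ W).powerset)
  set B := #(F₂.biUnion fun W => (U \ W).powerset)
  have b1 : 2 * A ≤ 2 ^ #U := Nat.le_of_mul_le_mul_right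
    (calc 2 * A * 2 ^ t₁ ≤ 2 * (#F₁ * 2 ^ #U) := by rw [mul_assoc]; exact Nat.mul_le_mul_left _ a1
      _ ≤ 2 ^ #U * 2 ^ t₁ := by rw [← mul_assoc, mul_comm]; exact Nat.mul_le_mul_left _ hc₁)
    (by positivity)
  have b2 : 2 * B < 2 ^ #U := Nat.lt_of_mul_lt_mul_right
    (calc 2 * B * 2 ^ t₂ ≤ 2 * (#F₂ * 2 ^ #U) := by rw [mul_assoc]; exact Nat.mul_le_mul_left _ a2
      _ < 2 ^ #U * 2 ^ t₂ := by
        rw [← mul_assoc, mul_comm]; exact Nat.mul_lt_mul_of_pos_left hc₂ hu)
  omega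

/-- The subsets with at most `N` elements are at most `(#A + 1) ^ N`. -/
theorem card_small_subsets_le (A : Finset L) (N : ℕ) :
    #(A.powerset.filter fun S => #S ≤ N) ≤ (#A + 1) ^ N := by
  induction N with
  | zero =>
    rw [pow_zero]
    refine card_le_one.2 fun S hS T hT => ?_
    simp only [mem_filter, Nat.le_zero, card_eq_zero] at hS hT
    rw [hS.2, hT.2]
  | succ N ih =>
    have hsub : (A.powerset.filter fun S => #S ≤ N + 1) ⊆
        (A.powerset.filter fun S => #S ≤ N) ∪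
          (A ×ˢ A.powerset.filter fun S => #S ≤ N).image (fun p => insert p.1 p.2) := by
      intro S hS
      simp only [mem_filter, mem_powerset] at hS
      rcases Nat.lt_or_ge N #S with h | h
      · obtain ⟨a, ha⟩ := card_pos.1 (Nat.zero_lt_of_lt h)
        refine mem_union_right _ (mem_image.2 ⟨(a, S.erase a), mem_product.2 ⟨hS.1 ha,
          mem_filter.2 ⟨mem_powerset.2 ((erase_subset _ _).trans hS.1), ?_⟩⟩, insert_erase ha⟩)
        rw [card_erase_of_mem ha]; omega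
      · exact mem_union_left _ (mem_filter.2 ⟨mem_powerset.2 hS.1, h⟩)
    refine (card_le_card hsub).trans ((card_union_le _ _).trans ?_)
    have h2 := card_image_le (s := A ×ˢ A.powerset.filter fun S => #S ≤ N)
      (f := fun p : L × Finset L => insert p.1 p.2)
    rw [card_product] at h2
    calc _ ≤ #(A.powerset.filter fun S => #S ≤ N) + #A * #(A.powerset.filter fun S => #S ≤ N) :=
          Nat.add_le_add_left h2 _
      _ = (#A + 1) * #(A.powerset.filter fun S => #S ≤ N) := by ring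
      _ ≤ (#A + 1) * (#A + 1) ^ N := Nat.mul_le_mul_left _ ih
      _ = _ := by ring

/-- A set `X ⊆ U` such that at most `N` lines covering `X` miss fewer than `t₁` points of `U`, and
every line with at least `m + t₂` points in `U` keeps at least `m` points of `X`. -/
theorem exists_plain_set [Fintype L] (pts : L → Finset P) (U : Finset P) (N m t₁ t₂ q : ℕ)
    (hq : ∀ l, #(pts l ∩ U) ≤ q) (ht₁ : 2 * (Fintype.card L + 1) ^ N ≤ 2 ^ t₁)
    (ht₂ : 2 * (Fintype.card L * (q + 1) ^ m) < 2 ^ t₂) :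
    ∃ X ⊆ U, (∀ S : Finset L, #S ≤ N → X ⊆ S.biUnion pts → #(U \ S.biUnion pts) < t₁) ∧
      ∀ l, m + t₂ ≤ #(pts l ∩ U) → m ≤ #(pts l ∩ X) := by
  set F₁ : Finset (Finset P) :=
    ((((univ : Finset L).powerset.filter fun S => #S ≤ N).image
      fun S => U \ S.biUnion pts).filter fun W => t₁ ≤ #W)
  set F₂ : Finset (Finset P) :=
    (univ : Finset L).biUnion fun l => (((pts l ∩ U).powerset.filter fun R => #R ≤ m).image
      fun R => (pts l ∩ U) \ R).filter fun W => t₂ ≤ #W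
  have hc₁ : 2 * #F₁ ≤ 2 ^ t₁ := by
    refine le_trans (Nat.mul_le_mul_left _ ?_) ht₁
    refine (card_filter_le _ _).trans (card_image_le.trans ?_)
    exact (card_small_subsets_le _ N).trans (le_of_eq (by rw [card_univ]))
  have hc₂ : 2 * #F₂ < 2 ^ t₂ := by
    refine lt_of_le_of_lt (Nat.mul_le_mul_left _ ?_) ht₂
    refine card_biUnion_le.trans ?_
    rw [← card_univ, ← smul_eq_mul, ← sum_const]
    refine sum_le_sum fun l _ => ?_
    refine (card_filter_le _ _).trans (card_image_le.trans ?_)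
    exact (card_small_subsets_le _ m).trans (Nat.pow_le_pow_left (Nat.add_le_add_right (hq l) 1) m)
  have hsub : ∀ W ∈ F₁ ∪ F₂, W ⊆ U := by
    intro W hW
    rcases mem_union.1 hW with h | h
    · obtain ⟨S, -, rfl⟩ := mem_image.1 (mem_filter.1 h).1
      exact sdiff_subset
    · obtain ⟨l, -, hl⟩ := mem_biUnion.1 h
      obtain ⟨R, -, rfl⟩ := mem_image.1 (mem_filter.1 hl).1
      exact sdiff_subset.trans inter_subset_right
  obtain ⟨X, hXU, hX⟩ := exists_hitting U F₁ F₂ t₁ t₂ hc₁ hc₂ hsub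
    (fun W hW => (mem_filter.1 hW).2) fun W hW => by
      obtain ⟨l, -, hl⟩ := mem_biUnion.1 hW
      exact (mem_filter.1 hl).2
  refine ⟨X, hXU, fun S hS hcov => ?_, fun l hl => ?_⟩
  · by_contra hlt
    obtain ⟨x, hx⟩ := hX (U \ S.biUnion pts) (mem_union_left _ (mem_filter.2
      ⟨mem_image.2 ⟨S, mem_filter.2 ⟨mem_powerset.2 (subset_univ _), hS⟩, rfl⟩, not_lt.1 hlt⟩))
    obtain ⟨h1, h2⟩ := mem_inter.1 hx
    exact (mem_sdiff.1 h2).2 (hcov h1)
  · by_contra hlt
    set R := pts l ∩ X with hR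
    have hRU : R ⊆ pts l ∩ U := inter_subset_inter_left hXU
    have hsz : t₂ ≤ #((pts l ∩ U) \ R) := by
      rw [card_sdiff_of_subset hRU]
      omega
    obtain ⟨x, hx⟩ := hX ((pts l ∩ U) \ R) (mem_union_right _ (mem_biUnion.2 ⟨l, mem_univ _,
      mem_filter.2 ⟨mem_image.2 ⟨R, mem_filter.2 ⟨mem_powerset.2 hRU, by omega⟩, rfl⟩, hsz⟩⟩))
    obtain ⟨h1, h2⟩ := mem_inter.1 hx
    obtain ⟨h3, h4⟩ := mem_sdiff.1 h2
    exact h4 (mem_inter.2 ⟨(mem_inter.1 h3).1, h1⟩)

end Vale.Agent.P045
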