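import Vale.Agent.P045.Rigidity
import Vale.Agent.P045.RandomSet

/-!
# P045: the plane lemma

For every `C` and every large prime `p` and every set `S₀` of at most `C * p` exceptional points of
the affine plane over `ZMod p`, there is a set `X` avoiding `S₀` such that any `p + C` lines
covering `X` contain, of some pencil or some parallel class, every line with at most half of its
points exceptional.
-/

open Finset
open scoped Classical

namespace Vale.Agent.P045

variable {p : ℕ} [Fact p.Prime]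

/-- A line: slope (`none` for vertical) and intercept. -/
abbrev PLine (p : ℕ) := Option (ZMod p) × ZMod p

/-- The points of a line. -/
noncomputable def linePts (l : PLine p) : Finset (ZMod p × ZMod p) :=
  univ.image fun x => match l.1 with
    | some a => (x, a * x + l.2)
    | none => (l.2, x)

theorem mem_linePts_some {a b : ZMod p} {x : ZMod p × ZMod p} :
    x ∈ linePts (some a, b) ↔ x.2 = a * x.1 + b := by
  simp only [linePts, mem_image, mem_univ, true_and]
  exact ⟨by rintro ⟨t, rfl⟩; rfl, fun h => ⟨x.1, Prod.ext rfl h.symm⟩⟩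

theorem mem_linePts_none {b : ZMod p} {x : ZMod p × ZMod p} :
    x ∈ linePts (none, b) ↔ x.1 = b := by
  simp only [linePts, mem_image, mem_univ, true_and]
  exact ⟨by rintro ⟨t, rfl⟩; rfl, fun h => ⟨x.2, Prod.ext h.symm rfl⟩⟩

theorem card_linePts (l : PLine p) : #(linePts l) = p := by
  obtain ⟨(_ | a), b⟩ := l <;>
    rw [linePts, card_image_of_injective _ fun u v h => by simp_all [Prod.ext_iff], card_univ,
      ZMod.card]

theorem linePts_meet_le (l l' : PLine p) (hne : l ≠ l') : #(linePts l ∩ linePts l') ≤ 1 := by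
  refine card_le_one.2 fun x hx y hy => ?_
  rw [mem_inter] at hx hy
  obtain ⟨(_ | a), b⟩ := l <;> obtain ⟨(_ | a'), b'⟩ := l' <;>
    simp only [mem_linePts_some, mem_linePts_none] at hx hy <;>
    obtain ⟨hx, hx'⟩ := hx <;> obtain ⟨hy, hy'⟩ := hy
  · exact absurd (by rw [← hx, hx']) hne
  · have h1 : x.1 = y.1 := hx.trans hy.symm
    exact Prod.ext h1 (by rw [hx', hy', h1])
  · have h1 : x.1 = y.1 := hx'.trans hy'.symm
    exact Prod.ext h1 (by rw [hx, hy, h1])
  · by_cases ha : a = a'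
    · subst ha
      exact absurd (by rw [add_left_cancel (hx.symm.trans hx')]) hne
    · have h1 : (a - a') * x.1 = (a - a') * y.1 := by
        linear_combination -(hx) + hx' + hy - hy'
      have h2 := mul_left_cancel₀ (sub_ne_zero.2 ha) h1
      exact Prod.ext h2 (by rw [hx, hy, h2])

theorem linePts_meet (l l' : PLine p) (hne : l.1 ≠ l'.1) :
    (linePts l ∩ linePts l').Nonempty := by
  obtain ⟨(_ | a), b⟩ := l <;> obtain ⟨(_ | a'), b'⟩ := l'
  · exact absurd rfl hne
  · exact ⟨(b, a' * b + b'), mem_inter.2 ⟨mem_linePts_none.2 rfl, mem_linePts_some.2 rfl⟩⟩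
  · exact ⟨(b', a * b' + b), mem_inter.2 ⟨mem_linePts_some.2 rfl, mem_linePts_none.2 rfl⟩⟩
  · have ha : a - a' ≠ 0 := sub_ne_zero.2 fun e => hne (congrArg some e)
    refine ⟨((b' - b) / (a - a'), a * ((b' - b) / (a - a')) + b),
      mem_inter.2 ⟨mem_linePts_some.2 rfl, mem_linePts_some.2 ?_⟩⟩
    change a * ((b' - b) / (a - a')) + b = a' * ((b' - b) / (a - a')) + b'
    linear_combination div_mul_cancel₀ (b' - b) ha

theorem linePts_disjoint (l l' : PLine p) (hne : l ≠ l') (h : l.1 = l'.1) :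
    Disjoint (linePts l) (linePts l') := by
  obtain ⟨s, b⟩ := l; obtain ⟨s', b'⟩ := l'
  simp only at h; subst h
  refine disjoint_left.2 fun x hx hx' => hne ?_
  rcases s with _ | a <;> simp only [mem_linePts_some, mem_linePts_none] at hx hx'
  · rw [← hx, hx']
  · rw [add_left_cancel (hx.symm.trans hx')]

/-- A power of two eventually dominates a cubic. -/
theorem exists_log_bound (K : ℕ) (hK : 0 < K) :
    ∃ L₀, ∀ L, L₀ ≤ L → 4000 * (K * (L + 1)) ^ 3 ≤ 2 ^ L := by
  have h := (tendsto_pow_const_div_const_pow_of_one_lt 3 one_lt_two (r := (2 : ℝ))).eventually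
    (Iio_mem_nhds (show (0 : ℝ) < 1 / (4000 * (2 * K : ℕ) ^ 3) by positivity))
  obtain ⟨L₀, hL⟩ := Filter.eventually_atTop.1 h
  refine ⟨L₀ + 1, fun L hL' => ?_⟩
  have h1 := hL L (by omega)
  rw [div_lt_div_iff₀ (by positivity) (by positivity), one_mul] at h1
  have h2 : (4000 * (K * (L + 1)) ^ 3 : ℝ) ≤ 2 ^ L := by
    refine le_trans ?_ h1.le
    have hL1 : (1 : ℝ) ≤ L := by exact_mod_cast (show 1 ≤ L by omega)
    have h3 : ((L : ℝ) + 1) ^ 3 ≤ (2 * L : ℝ) ^ 3 :=
      pow_le_pow_left₀ (by positivity) (by linarith) 3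
    push_cast
    calc (4000 * ((K : ℝ) * (L + 1)) ^ 3) = 4000 * (K : ℝ) ^ 3 * ((L : ℝ) + 1) ^ 3 := by ring
      _ ≤ 4000 * (K : ℝ) ^ 3 * (2 * L : ℝ) ^ 3 := mul_le_mul_of_nonneg_left h3 (by positivity)
      _ = _ := by ring
  exact_mod_cast h2

/-- The inequalities between the parameters. -/
theorem plane_numerics {p C L M : ℕ} (hbig : 4000 * M ^ 3 ≤ p) (hML : 20 * (L + 1) ≤ M)
    (hMC : C ≤ M) :
    200 * (C + C + M) * (C + C + M) ≤ p ∧
      2 * ((4 * (C + C + M) + 2) + ((2 * L + 3) + (L + 2) * (4 * (C + C + M) + 2) + 2)) ≤ p ∧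
      (p + C) * (2 * L + 3) + 1 ≤ M * p ∧ 2 * (C + M) ≤ p := by
  have hM : 20 ≤ M := by omega
  have h2 : 20 * (M * M) ≤ M ^ 3 := by
    rw [show M ^ 3 = M * (M * M) by ring]; exact Nat.mul_le_mul_right _ hM
  have h1 : 20 * M ≤ M * M := Nat.mul_le_mul_right _ hM
  have hCp : C ≤ p := by nlinarith
  refine ⟨by nlinarith, ?_, ?_, by nlinarith⟩
  · have h3 : (L + 2) * (4 * (C + C + M) + 2) ≤ (M + 2) * (14 * M) :=
      Nat.mul_le_mul (by omega) (by omega)
    nlinarith
  · have h3 : (p + C) * (2 * L + 3) ≤ (p + p) * (2 * L + 3) :=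
      Nat.mul_le_mul_right _ (by omega)
    have h4 : (4 * L + 7) * p ≤ M * p := Nat.mul_le_mul_right _ (by omega)
    nlinarith

/-- Lines covering almost all points outside `S₀` are at least `p / 2` and have small excess. -/
theorem cover_excess {C M t : ℕ} {S : Finset (PLine p)} {S₀ : Finset (ZMod p × ZMod p)}
    (hS : #S ≤ p + C) (hS₀ : #S₀ ≤ C * p) (hu : #((univ \ S₀) \ S.biUnion linePts) < t)
    (ht : t ≤ M * p) (hp : 2 * (C + M) ≤ p) :
    excess S linePts ≤ (C + C + M) * p ∧ p ≤ 2 * #S := by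
  have hE := excess_add_covered (S := S) (pts := linePts) (q := p) fun l _ => card_linePts l
  set cov := #(univ.filter fun x => mult S linePts x ≠ 0)
  have hcovered : p * p ≤ cov + C * p + t := by
    have h1 : (univ : Finset (ZMod p × ZMod p)) ⊆
        (univ.filter fun x => mult S linePts x ≠ 0) ∪ S₀ ∪ ((univ \ S₀) \ S.biUnion linePts) := by
      intro x _
      by_cases h0 : x ∈ S₀
      · exact mem_union_left _ (mem_union_right _ h0)
      by_cases hx : x ∈ S.biUnion linePts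
      · obtain ⟨l, hl, hxl⟩ := mem_biUnion.1 hx
        refine mem_union_left _ (mem_union_left _ (mem_filter.2 ⟨mem_univ _, ?_⟩))
        exact (card_pos.2 ⟨l, mem_filter.2 ⟨hl, hxl⟩⟩).ne'
      · exact mem_union_right _ (mem_sdiff.2 ⟨mem_sdiff.2 ⟨mem_univ _, h0⟩, hx⟩)
    have h2 := (card_le_card h1).trans ((card_union_le _ _).trans
      (Nat.add_le_add_right (card_union_le _ _) _))
    simp only [card_univ, Fintype.card_prod, ZMod.card] at h2
    omega
  have hsize : #S * p ≤ p * p + C * p := by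
    rw [← Nat.add_mul]; exact Nat.mul_le_mul_right _ hS
  have h2 : (C + C + M) * p = C * p + C * p + M * p := by ring
  refine ⟨by omega, ?_⟩
  have h3 : 2 * (C + M) * p ≤ p * p := Nat.mul_le_mul_right _ hp
  have h4 : 2 * (C + M) * p = 2 * (C * p) + 2 * (M * p) := by ring
  refine Nat.le_of_mul_le_mul_right (show p * p ≤ 2 * #S * p from ?_)
    (Fact.out : p.Prime).pos
  rw [mul_assoc]
  omega

/-- A near pencil or near class covering `X` contains all its lines rich in `X`. -/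
theorem rich_lines_mem {X : Finset (ZMod p × ZMod p)} {S : Finset (PLine p)} {D : ℕ}
    (hSX : X ⊆ S.biUnion linePts) (hexc : excess S linePts ≤ D * p) (hD1 : 1 ≤ D)
    (hn : p ≤ 2 * #S) (hq : 200 * D * D ≤ p) :
    (∃ o, ∀ l, o ∈ linePts l → 4 * D + 2 ≤ #(linePts l ∩ X) → l ∈ S) ∨
      ∃ c, ∀ l : PLine p, l.1 = c → 4 * D + 2 ≤ #(linePts l ∩ X) → l ∈ S := by
  -- a line outside `S` has at most `1 + r` points of `X`
  have hpoor : ∀ (l : PLine p) (A : Finset (PLine p)) (o : Finset (ZMod p × ZMod p)), l ∉ S →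
      A ⊆ S → (∀ a ∈ A, linePts l ∩ linePts a ⊆ o) → #(linePts l ∩ X) ≤ #o + (#S - #A) := by
    intro l A o hl hA ho
    have hsub : linePts l ∩ X ⊆ o ∪ (S \ A).biUnion fun a => linePts l ∩ linePts a := by
      intro x hx
      obtain ⟨hxl, hxX⟩ := mem_inter.1 hx
      obtain ⟨a, ha, hxa⟩ := mem_biUnion.1 (hSX hxX)
      by_cases haA : a ∈ A
      · exact mem_union_left _ (ho a haA (mem_inter.2 ⟨hxl, hxa⟩))
      · exact mem_union_right _ (mem_biUnion.2 ⟨a, mem_sdiff.2 ⟨ha, haA⟩, mem_inter.2 ⟨hxl, hxa⟩⟩)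
    refine (card_le_card hsub).trans ((card_union_le _ _).trans (Nat.add_le_add_left ?_ _))
    refine (card_biUnion_le).trans ((sum_le_sum fun a ha => ?_).trans_eq
      (by rw [← card_eq_sum_ones, card_sdiff_of_subset hA]))
    exact linePts_meet_le l a fun e => hl (e ▸ (mem_sdiff.1 ha).1)
  rcases near_pencil (S := S) (cls := Prod.fst) (fun l _ l' _ h => linePts_meet_le l l' h)
    (fun l _ l' _ h => linePts_meet l l' h) (fun l _ l' _ h h' => linePts_disjoint l l' h h')
    hexc hD1 hn hq with ⟨o, ho⟩ | ⟨c, hc⟩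
  · refine Or.inl ⟨o, fun l hlo hl => ?_⟩
    by_contra hlS
    have h1 := hpoor l (S.filter fun a => o ∈ linePts a) {o} hlS (filter_subset _ _)
      fun a ha x hx => mem_singleton.2 (card_le_one.1
        (linePts_meet_le l a fun e => hlS (e ▸ (mem_filter.1 ha).1)) x hx o
        (mem_inter.2 ⟨hlo, (mem_filter.1 ha).2⟩))
    rw [card_singleton] at h1
    simp only [mult] at ho
    omega
  · refine Or.inr ⟨c, fun l hlc hl => ?_⟩
    by_contra hlS
    have h1 := hpoor l (S.filter fun a => a.1 = c) ∅ hlS (filter_subset _ _) fun a ha x hx => by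
      obtain ⟨haS, hac⟩ := mem_filter.1 ha
      exact absurd (mem_inter.1 hx).2 (disjoint_left.1
        (linePts_disjoint l a (fun e => hlS (e ▸ haS)) (hlc.trans hac.symm)) (mem_inter.1 hx).1)
    rw [card_empty] at h1
    omega

/-- The plane lemma. -/
theorem exists_rigid (C : ℕ) : ∃ p₀, ∀ p, ∀ _ : Fact p.Prime, p₀ ≤ p →
    ∀ S₀ : Finset (ZMod p × ZMod p), #S₀ ≤ C * p →
      ∃ X : Finset (ZMod p × ZMod p), Disjoint X S₀ ∧
        ∀ S : Finset (PLine p), #S ≤ p + C → X ⊆ S.biUnion linePts →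
          (∃ o, ∀ l, o ∈ linePts l → 2 * #(linePts l ∩ S₀) ≤ p → l ∈ S) ∨
          ∃ c, ∀ l : PLine p, l.1 = c → 2 * #(linePts l ∩ S₀) ≤ p → l ∈ S := by
  obtain ⟨L₀, hL₀⟩ := exists_log_bound (C + 20) (by omega)
  refine ⟨2 ^ (L₀ + 1), fun p _ hp S₀ hS₀ => ?_⟩
  have hp0 : p ≠ 0 := (Fact.out : p.Prime).ne_zero
  obtain ⟨L, hL, hpL, hpU⟩ : ∃ L, L₀ + 1 ≤ L ∧ 2 ^ L ≤ p ∧ p < 2 ^ (L + 1) :=
    ⟨Nat.log 2 p, Nat.le_log_of_pow_le (by norm_num) hp, Nat.pow_log_le_self 2 hp0,
      Nat.lt_pow_succ_log_self (by norm_num) p⟩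
  obtain ⟨M, hbig, hML, hMC⟩ : ∃ M, 4000 * M ^ 3 ≤ p ∧ 20 * (L + 1) ≤ M ∧ C ≤ M :=
    ⟨(C + 20) * (L + 1), (hL₀ L (by omega)).trans hpL, Nat.mul_le_mul_right _ (by omega),
      le_trans (by omega) (Nat.le_mul_of_pos_right (C + 20) (by omega : 0 < L + 1))⟩
  obtain ⟨hq, hm, ht₁, hCM⟩ := plane_numerics hbig hML hMC
  have hL2 : Fintype.card (PLine p) + 1 ≤ 2 ^ (2 * L + 3) := by
    rw [show Fintype.card (PLine p) = (p + 1) * p by simp,
      show 2 * L + 3 = (L + 1) + (L + 1) + 1 by omega, pow_succ, pow_add]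
    nlinarith
  have hpL2 : p + 1 ≤ 2 ^ (L + 2) := by
    rw [pow_succ]
    omega
  obtain ⟨X, hXU, hcov, hline⟩ := exists_plain_set (linePts (p := p)) (univ \ S₀) (p + C)
    (4 * (C + C + M) + 2) ((p + C) * (2 * L + 3) + 1)
    ((2 * L + 3) + (L + 2) * (4 * (C + C + M) + 2) + 2) p
    (fun l => (card_le_card inter_subset_left).trans (card_linePts l).le)
    (by
      rw [pow_succ', pow_mul']
      exact Nat.mul_le_mul_left _ (Nat.pow_le_pow_left hL2 _))
    (by
      calc 2 * (Fintype.card (PLine p) * (p + 1) ^ (4 * (C + C + M) + 2))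
          ≤ 2 * (2 ^ (2 * L + 3) * (2 ^ (L + 2)) ^ (4 * (C + C + M) + 2)) :=
            Nat.mul_le_mul_left _ (Nat.mul_le_mul (by omega) (Nat.pow_le_pow_left hpL2 _))
        _ < 2 ^ 2 * (2 ^ (2 * L + 3) * (2 ^ (L + 2)) ^ (4 * (C + C + M) + 2)) :=
            Nat.mul_lt_mul_of_pos_right (by norm_num) (by positivity)
        _ = 2 ^ ((2 * L + 3) + (L + 2) * (4 * (C + C + M) + 2) + 2) := by
          rw [← pow_mul, pow_add, pow_add]
          ring)
  refine ⟨X, disjoint_left.2 fun x hx => (mem_sdiff.1 (hXU hx)).2, fun S hS hSX => ?_⟩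
  obtain ⟨hexc, hn⟩ := cover_excess hS hS₀ (hcov S hS hSX) ht₁ hCM
  have hrich : ∀ l, 2 * #(linePts l ∩ S₀) ≤ p → 4 * (C + C + M) + 2 ≤ #(linePts l ∩ X) := by
    intro l hl
    refine hline l ?_
    have h1 := card_inter_add_card_sdiff (linePts l) S₀
    rw [card_linePts] at h1
    have h2 : linePts l ∩ (univ \ S₀) = linePts l \ S₀ := by ext x; simp
    rw [h2]
    omega
  rcases rich_lines_mem hSX hexc (by omega) hn hq with ⟨o, ho⟩ | ⟨c, hc⟩
  · exact Or.inl ⟨o, fun l hlo hl => ho l hlo (hrich l hl)⟩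
  · exact Or.inr ⟨c, fun l hlc hl => hc l hlc (hrich l hl)⟩

end Vale.Agent.P045
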