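import Vale.Agent.P045.Lacunary
import Vale.Agent.P045.Plane

/-!
# P045: few uncovered points force a near pencil or a near parallel class

At most `p + K` lines of the affine plane over `ZMod p` that leave at most `p ^ 2 / 256` points
uncovered are, up to `4 * excess / p` of them, concurrent or parallel.
-/

open Finset
open scoped Classical

namespace Vale.Agent.P045

variable {p : ℕ} [Fact p.Prime]

/-- Coordinates in which a line becomes the axis `y = 0`. -/
def chart : PLine p → ZMod p × ZMod p → ZMod p × ZMod p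
  | (some m, b), w => (w.1, w.2 + m * w.1 + b)
  | (none, b), w => (w.2 + b, w.1)

/-- The linear form of a line in the chart of another line. -/
def form : PLine p → PLine p → ZMod p × ZMod p × ZMod p
  | (some m, b), (some m', b') => (m - m', 1, b - b')
  | (some _, _), (none, b') => (1, 0, -b')
  | (none, b), (some m', b') => (1, -m', -(m' * b) - b')
  | (none, b), (none, b') => (0, 1, b - b')

theorem chart_injective (L : PLine p) : Function.Injective (chart L) := by
  obtain ⟨(_ | m), b⟩ := L <;> rintro ⟨u, v⟩ ⟨u', v'⟩ h <;>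
    simp only [chart, Prod.mk.injEq] at h
  · exact Prod.ext h.2 (add_right_cancel h.1)
  · refine Prod.ext h.1 ?_
    simp only at h ⊢
    linear_combination h.2 - m * h.1

theorem mem_linePts_chart (L l : PLine p) (w : ZMod p × ZMod p) :
    chart L w ∈ linePts l ↔ (form L l).1 * w.1 + (form L l).2.1 * w.2 + (form L l).2.2 = 0 := by
  obtain ⟨(_ | m), b⟩ := L <;> obtain ⟨(_ | m'), b'⟩ := l <;>
    simp only [chart, form, mem_linePts_some, mem_linePts_none] <;>
    constructor <;> intro h <;> linear_combination h

theorem chart_mem_self (L : PLine p) (w : ZMod p × ZMod p) :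
    chart L w ∈ linePts L ↔ w.2 = 0 := by
  obtain ⟨(_ | m), b⟩ := L <;> simp only [chart, mem_linePts_some, mem_linePts_none] <;>
    constructor <;> intro h <;> linear_combination h

theorem form_eq_zero_iff (L l : PLine p) :
    ((form L l).1 = 0 ↔ l.1 = L.1) ∧ ((form L l).1 = 0 → l ≠ L → (form L l).2.2 ≠ 0) := by
  obtain ⟨(_ | m), b⟩ := L <;> obtain ⟨(_ | m'), b'⟩ := l <;>
    simp [form, sub_eq_zero, Prod.ext_iff, eq_comm]
  all_goals tauto

/-- The three possibilities along one of the lines. -/
theorem line_cases {N : Finset (PLine p)} {L : PLine p} (hL : L ∈ N) (d : ℕ)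
    (hu : #(univ.filter fun x => mult N linePts x = 0) < (d + 1) * (d + 1))
    (he : 2 * d + #N < 2 * p) :
    #(N.filter fun l => l.1 ≠ L.1) ≤ 2 * d + #N - p ∨
      (∃ o, p < mult N linePts o + 2 * d) ∨
      #(N.filter fun l => l.1 ≠ L.1) ≤
        #((linePts L).filter fun x => 2 ≤ mult N linePts x) + 2 * (2 * d + #N - p) := by
  set s := N.erase L
  set a := fun l => (form L l).1
  set b := fun l => (form L l).2.1
  set c := fun l => (form L l).2.2
  have hs : #s + 1 = #N := card_erase_add_one hL
  have hfilter : s.filter (fun l => a l ≠ 0) = N.filter fun l => l.1 ≠ L.1 := by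
    ext l
    simp only [s, a, mem_filter, mem_erase, ne_eq, (form_eq_zero_iff L l).1]
    exact ⟨fun h => ⟨h.1.2, h.2⟩, fun h => ⟨⟨fun e => h.2 (e ▸ rfl), h.1⟩, h.2⟩⟩
  have hthrough : ∀ x, through s a c x ≠ ∅ →
      #(through s a c x) + 1 ≤ mult N linePts (chart L (x, 0)) := by
    intro x _
    have hsub : insert L (through s a c x) ⊆ N.filter fun l => chart L (x, 0) ∈ linePts l := by
      refine insert_subset (mem_filter.2 ⟨hL, (chart_mem_self L _).2 rfl⟩) fun l hl => ?_
      obtain ⟨hls, -, hl0⟩ := mem_filter.1 hl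
      refine mem_filter.2 ⟨(mem_erase.1 hls).2, (mem_linePts_chart L l _).2 ?_⟩
      simpa [a, c] using hl0
    have := card_le_card hsub
    have hnot : L ∉ through s a c x := fun h => (mem_erase.1 (mem_filter.1 h).1).1 rfl
    rwa [card_insert_of_notMem hnot] at this
  rcases axis_cases s a b c
    (fun l hl => fun h => (form_eq_zero_iff L l).2 h (mem_erase.1 hl).1)
    (univ.filter fun w => mult N linePts (chart L w) = 0) d
    ((card_le_card_of_injOn (chart L) (fun w hw => by
      simp only [coe_filter, Set.mem_ofPred_eq, mem_univ, true_and] at hw ⊢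
      exact hw) (chart_injective L).injOn).trans_lt hu)
    (by omega)
    (fun x y hy => by
      by_cases h0 : mult N linePts (chart L (x, y)) = 0
      · exact Or.inl (mem_filter.2 ⟨mem_univ _, h0⟩)
      obtain ⟨l, hl⟩ := card_pos.1 (Nat.pos_of_ne_zero h0)
      obtain ⟨hlN, hlx⟩ := mem_filter.1 hl
      refine Or.inr ⟨l, mem_erase.2 ⟨fun e => hy ((chart_mem_self L (x, y)).1 (e ▸ hlx)), hlN⟩, ?_⟩
      exact (mem_linePts_chart L l (x, y)).1 hlx)
    with h | ⟨x, hx⟩ | h
  · rw [hfilter] at h
    exact Or.inl (by omega)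
  · refine Or.inr (Or.inl ?_)
    by_cases hx0 : through s a c x = ∅
    · rw [hx0, card_empty, zero_add] at hx
      refine ⟨chart L (x, 0), ?_⟩
      have : 0 < mult N linePts (chart L (x, 0)) :=
        card_pos.2 ⟨L, mem_filter.2 ⟨hL, (chart_mem_self L _).2 rfl⟩⟩
      omega
    · exact ⟨chart L (x, 0), by have := hthrough x hx0; omega⟩
  · refine Or.inr (Or.inr ?_)
    rw [hfilter] at h
    have h2 : #(univ.filter fun x => through s a c x ≠ ∅) ≤
        #((linePts L).filter fun x => 2 ≤ mult N linePts x) := by
      refine card_le_card_of_injOn (fun x => chart L (x, 0)) (fun x hx => ?_)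
        (fun x _ y _ e => congrArg Prod.fst (chart_injective L e))
      simp only [coe_filter, Set.mem_ofPred_eq, mem_univ, true_and] at hx ⊢
      refine ⟨(chart_mem_self L _).2 rfl, ?_⟩
      have := hthrough x hx
      have := card_pos.2 (nonempty_iff_ne_empty.2 hx)
      omega
    omega

/-- Few uncovered points: all but `4 * excess / p` lines are concurrent or parallel. -/
theorem algebraic_rigidity {N : Finset (PLine p)} {K : ℕ} (hN : #N ≤ p + K)
    (hu : 256 * #(univ.filter fun x => mult N linePts x = 0) ≤ p * p)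
    (hp : 64 * (K + 1) ≤ p) :
    (∃ o, (#N - mult N linePts o) * p ≤ 4 * excess N linePts) ∨
      ∃ c, (#N - #(N.filter fun l => l.1 = c)) * p ≤ 4 * excess N linePts := by
  set n := #N
  set E := excess N linePts
  set u := #(univ.filter fun x => mult N linePts x = 0)
  have hmeet : ∀ l ∈ N, ∀ l' ∈ N, l.1 ≠ l'.1 → (linePts l ∩ linePts l').Nonempty :=
    fun l _ l' _ h => linePts_meet l l' h
  have hdisj : ∀ l ∈ N, ∀ l' ∈ N, l ≠ l' → l.1 = l'.1 → Disjoint (linePts l) (linePts l') :=
    fun l _ l' _ h h' => linePts_disjoint l l' h h'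
  -- the covered points
  have hcov := excess_add_covered (S := N) (pts := linePts) (q := p) fun l _ => card_linePts l
  set cov := #(univ.filter fun x => mult N linePts x ≠ 0) with hcov'
  have hsplit : u + cov = p * p := by
    have := card_filter_add_card_filter_not (s := (univ : Finset (ZMod p × ZMod p)))
      (fun x => mult N linePts x = 0)
    simpa [u, cov, Fintype.card_prod, ZMod.card] using this
  have hn_low : 255 * p ≤ 256 * n := by
    have h1 : 255 * p * p ≤ 256 * n * p := by nlinarith
    exact Nat.le_of_mul_le_mul_right h1 (by omega)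
  -- a large pencil or class is enough
  by_cases hbig : (∃ o, n + 2 < 2 * mult N linePts o) ∨
      ∃ c, n + 2 < 2 * #(N.filter fun l => l.1 = c)
  · rcases hbig with ⟨o, ho⟩ | ⟨c, hc⟩
    · have h := outside_point_le (cls := Prod.fst) hmeet o
        (fun l hl l' hl' h1 h2 e => by
          by_contra hne
          exact disjoint_left.1 (hdisj l hl l' hl' hne e) h1 h2)
        fun l _ l' _ h => linePts_meet_le l l' h
      refine Or.inl ⟨o, le_trans ?_ (Nat.mul_le_mul_left 4 h)⟩
      rw [mul_comm 4, mul_assoc]
      exact Nat.mul_le_mul_left _ (by omega)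
    · have h : (n - #(N.filter fun l => l.1 = c)) * #(N.filter fun l => l.1 = c) ≤ E := by
        convert outside_class_le (cls := Prod.fst) hmeet hdisj c
      refine Or.inr ⟨c, le_trans ?_ (Nat.mul_le_mul_left 4 h)⟩
      rw [mul_comm 4, mul_assoc]
      exact Nat.mul_le_mul_left _ (by omega)
  simp only [not_or, not_exists, not_lt] at hbig
  exfalso
  -- every line carries many multiple points
  have hd : u < (p / 16 + 1) * (p / 16 + 1) := by
    have : p * p < 256 * ((p / 16 + 1) * (p / 16 + 1)) := by
      have : p < 16 * (p / 16 + 1) := by omega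
      nlinarith
    omega
  have hmulti : ∀ L ∈ N, 17 * p ≤ 100 * #((linePts L).filter fun x => 2 ≤ mult N linePts x) := by
    intro L hL
    have hcls := hbig.2 L.1
    have hfil : #(N.filter fun l => l.1 = L.1) + #(N.filter fun l => l.1 ≠ L.1) = n :=
      card_filter_add_card_filter_not _
    rcases line_cases hL (p / 16) hd (by omega) with h | ⟨o, ho⟩ | h
    · omega
    · have := hbig.1 o
      omega
    · omega
  have hsum : ∑ L ∈ N, #((linePts L).filter fun x => 2 ≤ mult N linePts x) ≤ 2 * E := by
    calc ∑ L ∈ N, #((linePts L).filter fun x => 2 ≤ mult N linePts x)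
        = ∑ x, mult N linePts x * if 2 ≤ mult N linePts x then 1 else 0 := by
          rw [sum_mult_mul]
          simp only [card_filter]
      _ ≤ ∑ x, 2 * (mult N linePts x - 1) := sum_le_sum fun x _ => by split_ifs <;> omega
      _ = 2 * E := by rw [← mul_sum]; rfl
  have h1 : n * (17 * p) ≤ 100 * (2 * E) := by
    refine le_trans ?_ (Nat.mul_le_mul_left 100 hsum)
    rw [mul_sum, ← smul_eq_mul, ← sum_const]
    exact sum_le_sum hmulti
  have h2 : 256 * E ≤ 5 * (p * p) := by
    have : n * p ≤ (p + K) * p := Nat.mul_le_mul_right _ hN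
    nlinarith
  nlinarith

/-- A line outside a near pencil meets the other lines in few points. -/
theorem algebraic_rigidity_rich {N : Finset (PLine p)} {K r : ℕ} (hN : #N ≤ p + K)
    (hu : 256 * #(univ.filter fun x => mult N linePts x = 0) ≤ p * p)
    (hp : 64 * (K + 1) ≤ p) (hr : 4 * excess N linePts + 2 * p ≤ r * p) :
    (∃ o, ∀ l, o ∈ linePts l → r ≤ #((linePts l).filter fun x => mult N linePts x ≠ 0) → l ∈ N) ∨
      ∃ c, ∀ l : PLine p, l.1 = c →
        r ≤ #((linePts l).filter fun x => mult N linePts x ≠ 0) → l ∈ N := by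
  -- a line outside `N` has at most `#o + (#N - #A)` covered points
  have hpoor : ∀ (l : PLine p) (A : Finset (PLine p)) (o : Finset (ZMod p × ZMod p)), l ∉ N →
      A ⊆ N → (∀ a ∈ A, linePts l ∩ linePts a ⊆ o) →
      #((linePts l).filter fun x => mult N linePts x ≠ 0) ≤ #o + (#N - #A) := by
    intro l A o hl hA ho
    have hsub : ((linePts l).filter fun x => mult N linePts x ≠ 0) ⊆
        o ∪ (N \ A).biUnion fun a => linePts l ∩ linePts a := by
      intro x hx
      obtain ⟨hxl, hxN⟩ := mem_filter.1 hx
      obtain ⟨a, ha⟩ := card_pos.1 (Nat.pos_of_ne_zero hxN)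
      obtain ⟨haN, hxa⟩ := mem_filter.1 ha
      by_cases haA : a ∈ A
      · exact mem_union_left _ (ho a haA (mem_inter.2 ⟨hxl, hxa⟩))
      · exact mem_union_right _
          (mem_biUnion.2 ⟨a, mem_sdiff.2 ⟨haN, haA⟩, mem_inter.2 ⟨hxl, hxa⟩⟩)
    refine (card_le_card hsub).trans ((card_union_le _ _).trans (Nat.add_le_add_left ?_ _))
    refine (card_biUnion_le).trans ((sum_le_sum fun a ha => ?_).trans_eq
      (by rw [← card_eq_sum_ones, card_sdiff_of_subset hA]))
    exact linePts_meet_le l a fun e => hl (e ▸ (mem_sdiff.1 ha).1)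
  have hfew : ∀ a, a * p ≤ 4 * excess N linePts → a + 1 < r := fun a ha => by
    by_contra h
    have : r * p ≤ (a + 1) * p := Nat.mul_le_mul_right _ (by omega)
    nlinarith
  rcases algebraic_rigidity hN hu hp with ⟨o, ho⟩ | ⟨c, hc⟩
  · refine Or.inl ⟨o, fun l hlo hl => ?_⟩
    by_contra hlN
    have h1 := hpoor l (N.filter fun a => o ∈ linePts a) {o} hlN (filter_subset _ _)
      fun a ha x hx => mem_singleton.2 (card_le_one.1
        (linePts_meet_le l a fun e => hlN (e ▸ (mem_filter.1 ha).1)) x hx o
        (mem_inter.2 ⟨hlo, (mem_filter.1 ha).2⟩))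
    rw [card_singleton] at h1
    have h2 := hfew _ ho
    simp only [mult] at h2 h1 hl
    omega
  · refine Or.inr ⟨c, fun l hlc hl => ?_⟩
    by_contra hlN
    have h1 := hpoor l (N.filter fun a => a.1 = c) ∅ hlN (filter_subset _ _) fun a ha x hx => by
      obtain ⟨haN, hac⟩ := mem_filter.1 ha
      exact absurd (mem_inter.1 hx).2 (disjoint_left.1
        (linePts_disjoint l a (fun e => hlN (e ▸ haN)) (hlc.trans hac.symm)) (mem_inter.1 hx).1)
    rw [card_empty] at h1
    have h2 := hfew _ hc
    omega

end Vale.Agent.P045
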