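import Mathlib

/-!
# P045: the finite gadget of the thinned affine-plane host

One gadget sits on every line `ℓ` of the pencil at `o*`.  Slots are points of `ℓ`.
An edge of `G` lacks the vertex `ℓ` and carries a special value `col` instead; an edge of `N`,
the plain edges (vector `t0`) and the role edges (vectors `w i`) keep the vertex `ℓ`.
In `keep` the line `ℓ` is in the cover, in `drop` it is not; `T` is the set of slots on
other lines of the cover, `P` and `Cc` are the values and special values in the cover.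
-/

namespace Vale.Agent.P045

/-- An edge of the gadget that does not contain the pencil line. -/
structure GEdge (k : ℕ) where
  slot : ℕ
  col : ℕ
  vec : Fin k → ℕ
deriving DecidableEq

/-- An edge of the gadget that contains the pencil line. -/
structure NEdge (k : ℕ) where
  slot : ℕ
  vec : Fin k → ℕ
deriving DecidableEq

/-- `R` role vectors, pairwise disjoint and disjoint from `t0`, so any coordinate of a role
may be merged. -/
structure Gadget (R : ℕ) where
  k : ℕ
  G : Finset (GEdge k)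
  N : Finset (NEdge k)
  t0 : Fin k → ℕ
  w : Fin R → Fin k → ℕ
  gg : ∀ e ∈ G, ∀ f ∈ G, e.slot ≠ f.slot → e.col ≠ f.col → ∃ j, e.vec j = f.vec j
  gn : ∀ e ∈ G, ∀ f ∈ N, e.slot ≠ f.slot → ∃ j, e.vec j = f.vec j
  gt : ∀ e ∈ G, ∃ j, e.vec j = t0 j
  gw : ∀ e ∈ G, ∀ i, ∃ j, e.vec j = w i j
  w_inj : ∀ i i' j, w i j = w i' j → i = i'
  w_ne_t0 : ∀ i j, w i j ≠ t0 j
  keep : ∀ (T : Finset ℕ) (P : Finset (Fin k × ℕ)) (Cc : Finset ℕ),
    (∀ e ∈ G, e.slot ∈ T ∨ e.col ∈ Cc ∨ ∃ j, (j, e.vec j) ∈ P) →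
    k + min T.card 3 ≤ T.card + P.card + Cc.card
  drop : ∀ (T : Finset ℕ) (P : Finset (Fin k × ℕ)) (Cc : Finset ℕ),
    (∀ e ∈ G, e.slot ∈ T ∨ e.col ∈ Cc ∨ ∃ j, (j, e.vec j) ∈ P) →
    (∀ e ∈ N, e.slot ∈ T ∨ ∃ j, (j, e.vec j) ∈ P) →
    (∃ j, (j, t0 j) ∈ P) →
    k + 1 + min T.card 3 ≤ T.card + P.card + Cc.card

/-- What the gadget side has to prove: any number of roles, and `k` as large as desired. -/
def GadgetExists : Prop := ∀ R K : ℕ, ∃ g : Gadget R, K ≤ g.k

end Vale.Agent.P045
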