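import Mathlib

/-!
# P045: a set nearly preserved by many dilations of the prime field is trivial

One sum-product step and the Cauchy–Davenport theorem.
-/

open Finset
open scoped Pointwise

namespace Vale.Agent.P045.Interior

variable {p : ℕ} [hp : Fact p.Prime]

/-- The number of points of `G` that a permutation moves out of `G`. -/
def err (G : Finset (ZMod p)) (f : Equiv.Perm (ZMod p)) : ℕ := #(G.filter fun x => f x ∉ G)

omit hp in
lemma err_mul (G : Finset (ZMod p)) (f g : Equiv.Perm (ZMod p)) :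
    err G (f * g) ≤ err G f + err G g := by
  classical
  have h : G.filter (fun x => (f * g) x ∉ G) ⊆
      (G.filter fun x => g x ∉ G) ∪ (G.filter fun y => f y ∉ G).image g.symm := by
    intro x hx
    obtain ⟨hx1, hx2⟩ := mem_filter.1 hx
    by_cases hg : g x ∈ G
    · exact mem_union_right _ (mem_image.2 ⟨g x, mem_filter.2 ⟨hg, hx2⟩, g.symm_apply_apply x⟩)
    · exact mem_union_left _ (mem_filter.2 ⟨hx1, hg⟩)
  refine (card_le_card h).trans ((card_union_le _ _).trans ?_)
  rw [add_comm (err G f)]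
  exact Nat.add_le_add_left card_image_le _

omit hp in
lemma err_inv (G : Finset (ZMod p)) (f : Equiv.Perm (ZMod p)) : err G f⁻¹ = err G f := by
  classical
  have h1 : #(G.filter fun x => f x ∈ G) = #(G.filter fun x => f⁻¹ x ∈ G) := by
    refine card_nbij' f (fun y => f⁻¹ y) ?_ ?_ ?_ ?_
    · intro x hx
      simp only [mem_coe, mem_filter] at hx ⊢
      exact ⟨hx.2, by simpa using hx.1⟩
    · intro x hx
      simp only [mem_coe, mem_filter] at hx ⊢
      exact ⟨hx.2, by simpa using hx.1⟩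
    · intro x _; simp
    · intro x _; simp
  have h2 := card_filter_add_card_filter_not (s := G) (fun x => f x ∈ G)
  have h3 := card_filter_add_card_filter_not (s := G) (fun x => f⁻¹ x ∈ G)
  unfold err
  omega

omit hp in
lemma err_one (G : Finset (ZMod p)) : err G 1 = 0 := by
  unfold err
  exact card_eq_zero.2 (filter_eq_empty_iff.2 fun x hx h => h (by simpa using hx))

/-- The dilation about `v` with factor `c`. -/
noncomputable def dil (v c : ZMod p) : Equiv.Perm (ZMod p) :=
  if hc : c = 0 then 1 else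
    (Equiv.subRight v).trans ((Equiv.mulLeft₀ c hc).trans (Equiv.addRight v))

lemma dil_apply {v c : ZMod p} (hc : c ≠ 0) (x : ZMod p) : dil v c x = c * (x - v) + v := by
  simp [dil, hc]

lemma dil_inv_apply {v c : ZMod p} (hc : c ≠ 0) (x : ZMod p) :
    (dil v c)⁻¹ x = c⁻¹ * (x - v) + v := by
  refine (dil v c).injective ?_
  rw [Equiv.Perm.inv_def, Equiv.apply_symm_apply, dil_apply hc]
  field_simp
  ring

/-- The translation error. -/
def terr (G : Finset (ZMod p)) (t : ZMod p) : ℕ := err G (Equiv.addRight t)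

lemma terr_add (G : Finset (ZMod p)) (s t : ZMod p) : terr G (s + t) ≤ terr G s + terr G t := by
  have : Equiv.addRight (s + t) = Equiv.addRight t * Equiv.addRight s := by
    ext x; simp [add_assoc]
  unfold terr
  rw [this, add_comm (err G _)]
  exact err_mul G _ _

lemma terr_neg (G : Finset (ZMod p)) (t : ZMod p) : terr G (-t) = terr G t := by
  have : Equiv.addRight (-t) = (Equiv.addRight t)⁻¹ := by ext x; simp
  unfold terr
  rw [this, err_inv]

lemma terr_sub (G : Finset (ZMod p)) (s t : ZMod p) : terr G (s - t) ≤ terr G s + terr G t := by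
  rw [sub_eq_add_neg, ← terr_neg G t]
  exact terr_add G s (-t)

lemma terr_conj (G : Finset (ZMod p)) {v c : ZMod p} (hc : c ≠ 0) (t : ZMod p) :
    terr G (c * t) ≤ terr G t + 2 * err G (dil v c) := by
  have h : Equiv.addRight (c * t) = dil v c * Equiv.addRight t * (dil v c)⁻¹ := by
    refine Equiv.ext fun x => ?_
    simp only [Equiv.Perm.mul_apply, Equiv.coe_addRight, dil_apply hc, dil_inv_apply hc]
    field_simp
    ring
  have h1 := err_mul G (dil v c * Equiv.addRight t) (dil v c)⁻¹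
  have h2 := err_mul G (dil v c) (Equiv.addRight t)
  have h3 := err_inv G (dil v c)
  unfold terr
  rw [h]
  omega

/-- Translations with small error. -/
def Tset (G : Finset (ZMod p)) (L : ℕ) : Finset (ZMod p) := univ.filter fun t => terr G t ≤ L

lemma mem_Tset {G : Finset (ZMod p)} {L : ℕ} {t : ZMod p} : t ∈ Tset G L ↔ terr G t ≤ L := by
  simp [Tset]

lemma Tset_add (G : Finset (ZMod p)) (K L : ℕ) : Tset G K + Tset G L ⊆ Tset G (K + L) := by
  intro x hx
  obtain ⟨s, hs, t, ht, rfl⟩ := mem_add.1 hx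
  rw [mem_Tset] at hs ht ⊢
  exact (terr_add G s t).trans (add_le_add hs ht)

/-- All translation errors add up to `|G| (p - |G|)`. -/
lemma sum_terr (G : Finset (ZMod p)) : ∑ t, terr G t = #G * (p - #G) := by
  classical
  have hE : ∀ t, terr G t = ∑ x ∈ G, if x + t ∉ G then 1 else 0 := by
    intro t
    rw [terr, err, card_filter]
    rfl
  simp only [hE]
  rw [sum_comm, sum_congr rfl (fun x _ => ?_), sum_const, smul_eq_mul]
  rw [← card_filter]
  have : univ.filter (fun t => x + t ∉ G) = Gᶜ.image (fun y => y - x) := by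
    ext t
    simp only [mem_filter, mem_univ, true_and, mem_image, mem_compl]
    constructor
    · intro h; exact ⟨x + t, h, by simp⟩
    · rintro ⟨y, hy, rfl⟩; simpa using hy
  rw [this, card_image_of_injective _ (sub_left_injective), card_compl, ZMod.card]

lemma card_Tset_nsmul (G : Finset (ZMod p)) (L : ℕ) (k : ℕ) :
    min p (k * (#(Tset G L) - 1) + 1) ≤ #(Tset G (k * L)) := by
  induction k with
  | zero =>
    refine (min_le_right _ _).trans ?_
    rw [zero_mul, zero_add]
    exact card_pos.2 ⟨0, mem_Tset.2 (by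
      have : Equiv.addRight (0 : ZMod p) = 1 := by ext x; simp
      simp [terr, this, err_one])⟩
  | succ k ih =>
    have hne : ∀ K, (Tset G K).Nonempty := fun K => ⟨0, mem_Tset.2 (by
      have : Equiv.addRight (0 : ZMod p) = 1 := by ext x; simp
      simp [terr, this, err_one])⟩
    have h := ZMod.cauchy_davenport hp.out (hne (k * L)) (hne L)
    have h' := card_le_card (Tset_add G (k * L) L)
    have hsm : (k + 1) * L = k * L + L := by ring
    have hsm' : (k + 1) * (#(Tset G L) - 1) = k * (#(Tset G L) - 1) + (#(Tset G L) - 1) := by ring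
    have := (hne L).card_pos
    rw [hsm, hsm']
    simp only [min_le_iff] at ih h ⊢
    omega

/-- Many translations with small error make `G` trivial. -/
lemma trivial_of_translations (G : Finset (ZMod p)) (L k : ℕ)
    (hk : p ≤ k * (#(Tset G L) - 1) + 1) : #G * (p - #G) ≤ p * (k * L) := by
  have hfull : Tset G (k * L) = univ := by
    refine eq_univ_of_card _ (le_antisymm (card_le_univ _) ?_)
    rw [ZMod.card]
    exact (le_min le_rfl hk).trans (card_Tset_nsmul G L k)
  rw [← sum_terr]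
  refine (sum_le_card_nsmul _ _ (k * L) fun t _ => ?_).trans_eq ?_
  · exact mem_Tset.1 (hfull ▸ mem_univ t)
  · simp [ZMod.card]

/-- The quotient set `(B - B) / (A - A)`. -/
def quot (A B : Finset (ZMod p)) : Finset (ZMod p) :=
  ((A ×ˢ A).filter (fun a => a.1 ≠ a.2) ×ˢ (B ×ˢ B)).image
    fun z => (z.2.1 - z.2.2) / (z.1.1 - z.1.2)

lemma mem_quot {A B : Finset (ZMod p)} {ξ : ZMod p} :
    ξ ∈ quot A B ↔ ∃ a ∈ A, ∃ a' ∈ A, a ≠ a' ∧ ∃ b ∈ B, ∃ b' ∈ B, ξ = (b - b') / (a - a') := by
  simp only [quot, mem_image, mem_product, mem_filter, Prod.exists]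
  constructor
  · rintro ⟨a, a', b, b', ⟨⟨⟨ha, ha'⟩, hne⟩, hb, hb'⟩, rfl⟩
    exact ⟨a, ha, a', ha', hne, b, hb, b', hb', rfl⟩
  · rintro ⟨a, ha, a', ha', hne, b, hb, b', hb', rfl⟩
    exact ⟨a, a', b, b', ⟨⟨⟨ha, ha'⟩, hne⟩, hb, hb'⟩, rfl⟩

/-- Some dilate of `A` added to `B` is large, on average. -/
lemma exists_large_sum (A B : Finset (ZMod p)) :
    ∃ ξ : ZMod p, min (#A * #B) p ≤ 2 * #((A ×ˢ B).image fun z => z.2 + ξ * z.1) := by
  classical
  let N := #A * #B
  let Eg : ZMod p → ℕ := fun ξ =>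
    #(((A ×ˢ B) ×ˢ (A ×ˢ B)).filter fun z => z.1.2 + ξ * z.1.1 = z.2.2 + ξ * z.2.1)
  have hsum : ∑ ξ, Eg ξ ≤ p * N + N * N := by
    simp only [Eg, card_filter]
    rw [sum_comm]
    calc ∑ z ∈ (A ×ˢ B) ×ˢ (A ×ˢ B), ∑ ξ : ZMod p,
          (if z.1.2 + ξ * z.1.1 = z.2.2 + ξ * z.2.1 then 1 else 0)
        ≤ ∑ z ∈ (A ×ˢ B) ×ˢ (A ×ˢ B), ((if z.1 = z.2 then p else 0) + 1) := by
          refine sum_le_sum fun z _ => ?_
          by_cases hz : z.1 = z.2
          · simp [hz, ZMod.card]
          · rw [if_neg hz, zero_add, ← card_filter]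
            refine card_le_one.2 fun ξ hξ ξ' hξ' => ?_
            simp only [mem_filter, mem_univ, true_and] at hξ hξ'
            have h : (ξ - ξ') * (z.1.1 - z.2.1) = 0 := by linear_combination hξ - hξ'
            rcases mul_eq_zero.1 h with e | e
            · exact sub_eq_zero.1 e
            · have e' := sub_eq_zero.1 e
              refine absurd (Prod.ext e' ?_) hz
              rw [e'] at hξ
              exact add_right_cancel hξ
      _ = p * N + N * N := by
          rw [sum_add_distrib, ← card_eq_sum_ones, card_product, card_product]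
          congr 1
          rw [sum_product]
          simp only [sum_ite_eq]
          rw [sum_congr rfl (fun x hx => if_pos hx), sum_const, card_product, smul_eq_mul, mul_comm]
  obtain ⟨ξ, -, hξ⟩ := exists_le_of_sum_le (univ_nonempty (α := ZMod p))
    (g := fun _ => (p * N + N * N) / p + 1) (f := Eg) (by
      refine hsum.trans ?_
      rw [sum_const, card_univ, ZMod.card, smul_eq_mul, mul_add, mul_one]
      have := Nat.div_add_mod (p * N + N * N) p
      have := Nat.mod_lt (p * N + N * N) hp.out.pos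
      omega)
  refine ⟨ξ, ?_⟩
  set I := (A ×ˢ B).image fun z => z.2 + ξ * z.1 with hI
  rcases Nat.eq_zero_or_pos N with h0 | hN
  · simp [N] at h0
    rcases h0 with h0 | h0 <;> simp [h0]
  have hcs : N * N ≤ #I * Eg ξ := by
    have hfib : ∑ y ∈ I, #((A ×ˢ B).filter fun z => z.2 + ξ * z.1 = y) = N := by
      rw [← card_eq_sum_card_image, card_product]
    have hE : Eg ξ = ∑ y ∈ I, #((A ×ˢ B).filter fun z => z.2 + ξ * z.1 = y) ^ 2 := by
      simp only [Eg, sq, ← card_product]
      rw [← card_biUnion]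
      · congr 1
        ext z
        simp only [mem_filter, mem_product, mem_biUnion, hI, mem_image]
        constructor
        · rintro ⟨⟨h1, h2⟩, he⟩
          exact ⟨_, ⟨z.1, h1, rfl⟩, ⟨h1, rfl⟩, h2, he.symm⟩
        · rintro ⟨y, -, ⟨h1, e1⟩, h2, e2⟩
          exact ⟨⟨h1, h2⟩, e1.trans e2.symm⟩
      · intro y _ y' _ hy
        rw [Function.onFun, disjoint_left]
        intro z hz hz'
        exact hy ((mem_filter.1 (mem_product.1 hz).1).2.symm.trans
          (mem_filter.1 (mem_product.1 hz').1).2)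
    have := sq_sum_le_card_mul_sum_sq (s := I)
      (f := fun y => #((A ×ˢ B).filter fun z => z.2 + ξ * z.1 = y))
    rw [hfib, ← hE, sq] at this
    exact this
  have hpos := hp.out.pos
  have hdiv := Nat.div_mul_le_self (p * N + N * N) p
  have hmul : Eg ξ * p ≤ p * N + N * N + p := by
    calc Eg ξ * p ≤ ((p * N + N * N) / p + 1) * p := Nat.mul_le_mul_right _ hξ
      _ ≤ _ := by rw [add_mul, one_mul]; omega
  have hkey : N * N * p ≤ #I * (p * N + N * N + p) :=
    (Nat.mul_le_mul_right _ hcs).trans (by rw [mul_assoc]; exact Nat.mul_le_mul_left _ hmul)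
  by_contra hlt
  push Not at hlt
  rcases le_total N p with hc | hc
  · rw [min_eq_left hc] at hlt
    have h1 : p * N + N * N + p ≤ 2 * (p * N) + p := by nlinarith
    have h3 : (2 * #I + 1) * (2 * (p * N) + p) ≤ N * (2 * (p * N) + p) :=
      Nat.mul_le_mul_right _ hlt
    have h4 := Nat.mul_le_mul_left #I h1
    nlinarith
  · rw [min_eq_right hc] at hlt
    have h1 : p * N + N * N + p ≤ 2 * (N * N) + p := by nlinarith
    have h3 : (2 * #I + 1) * (2 * (N * N) + p) ≤ p * (2 * (N * N) + p) :=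
      Nat.mul_le_mul_right _ hlt
    have h4 := Nat.mul_le_mul_left #I h1
    nlinarith

/-- Six-term sums give many translations of small error. -/
lemma many_translations (G : Finset (ZMod p)) (A B : Finset (ZMod p)) (η : ZMod p) (hη : η ≠ 0)
    (hA : 2 ≤ #A) (hB : B.Nonempty) (K : ℕ) (hAB : ∀ a ∈ A, ∀ b ∈ B, terr G (a * b) ≤ K)
    (hAA : ∀ a ∈ A, ∀ a' ∈ A, terr G (a * (a' * η)) ≤ K) :
    min (#A * #B) p ≤ 2 * #(Tset G (6 * K)) := by
  classical
  by_cases hQ : quot A B = univ
  · obtain ⟨ξ, hξ⟩ := exists_large_sum A B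
    obtain ⟨a, ha, a', ha', hne, b, hb, b', hb', he⟩ := mem_quot.1 (hQ ▸ mem_univ ξ)
    refine hξ.trans (Nat.mul_le_mul_left 2 ?_)
    have hd : a - a' ≠ 0 := sub_ne_zero.2 hne
    refine card_le_card_of_injOn (fun y => (a - a') * y) ?_
      (fun _ _ _ _ h => mul_left_cancel₀ hd h)
    intro y hy
    simp only [coe_image, Set.mem_image, mem_coe, mem_product] at hy
    obtain ⟨⟨a₂, b₂⟩, ⟨h1, h2⟩, rfl⟩ := hy
    rw [mem_coe, mem_Tset]
    have heq : (a - a') * (b₂ + ξ * a₂) = a * b₂ - a' * b₂ + (a₂ * b - a₂ * b') := by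
      rw [he]; field_simp
    simp only
    rw [heq]
    have := terr_add G (a * b₂ - a' * b₂) (a₂ * b - a₂ * b')
    have := terr_sub G (a * b₂) (a' * b₂)
    have := terr_sub G (a₂ * b) (a₂ * b')
    have := hAB a ha b₂ h2
    have := hAB a' ha' b₂ h2
    have := hAB a₂ h1 b hb
    have := hAB a₂ h1 b' hb'
    omega
  · have hQne : (quot A B).Nonempty := by
      obtain ⟨a, ha, a', ha', hne⟩ := one_lt_card.1 hA
      obtain ⟨b, hb⟩ := hB
      exact ⟨_, mem_quot.2 ⟨a, ha, a', ha', hne, b, hb, b, hb, rfl⟩⟩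
    obtain ⟨ξ, hξQ, hξn⟩ : ∃ ξ ∈ quot A B, ξ + η ∉ quot A B := by
      by_contra hc
      push Not at hc
      obtain ⟨ξ₀, hξ₀⟩ := hQne
      have hall : ∀ m : ℕ, ξ₀ + (m : ZMod p) * η ∈ quot A B := by
        intro m
        induction m with
        | zero => simpa using hξ₀
        | succ m ih => push_cast; rw [add_mul, one_mul, ← add_assoc]; exact hc _ ih
      refine hQ (eq_univ_iff_forall.2 fun z => ?_)
      have h := hall ((z - ξ₀) / η).val
      rw [ZMod.natCast_zmod_val, div_mul_cancel₀ _ hη, add_sub_cancel] at h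
      exact h
    obtain ⟨a, ha, a', ha', hne, b, hb, b', hb', he⟩ := mem_quot.1 hξQ
    refine (min_le_left _ _).trans ?_
    rw [← card_product]
    refine le_trans ?_ (Nat.le_mul_of_pos_left _ two_pos)
    have hd : a - a' ≠ 0 := sub_ne_zero.2 hne
    refine card_le_card_of_injOn (fun z => (a - a') * (z.2 + (ξ + η) * z.1)) ?_ ?_
    · intro z hz
      obtain ⟨h1, h2⟩ := mem_product.1 (mem_coe.1 hz)
      rw [mem_coe, mem_Tset]
      have heq : (a - a') * (z.2 + (ξ + η) * z.1) = a * z.2 - a' * z.2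
          + ((z.1 * b - z.1 * b') + (a * (z.1 * η) - a' * (z.1 * η))) := by
        rw [he]; field_simp
      simp only
      rw [heq]
      have := terr_add G (a * z.2 - a' * z.2)
        ((z.1 * b - z.1 * b') + (a * (z.1 * η) - a' * (z.1 * η)))
      have := terr_add G (z.1 * b - z.1 * b') (a * (z.1 * η) - a' * (z.1 * η))
      have := terr_sub G (a * z.2) (a' * z.2)
      have := terr_sub G (z.1 * b) (z.1 * b')
      have := terr_sub G (a * (z.1 * η)) (a' * (z.1 * η))
      have := hAB a ha z.2 h2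
      have := hAB a' ha' z.2 h2
      have := hAB z.1 h1 b hb
      have := hAB z.1 h1 b' hb'
      have := hAA a ha z.1 h1
      have := hAA a' ha' z.1 h1
      omega
    · intro z hz w hw h
      obtain ⟨h1, h2⟩ := mem_product.1 (mem_coe.1 hz)
      obtain ⟨k1, k2⟩ := mem_product.1 (mem_coe.1 hw)
      have h' := mul_left_cancel₀ hd h
      by_cases h11 : z.1 = w.1
      · rw [h11] at h'
        exact Prod.ext h11 (add_right_cancel h')
      · exfalso
        refine hξn (mem_quot.2 ⟨w.1, k1, z.1, h1, Ne.symm h11, z.2, h2, w.2, k2, ?_⟩)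
        rw [eq_div_iff (sub_ne_zero.2 (Ne.symm h11))]
        linear_combination -h'

/-- A set nearly preserved by many dilations, not all with the same centre, is trivial. -/
theorem trivial_of_dilations (G : Finset (ZMod p)) (H : Finset (ZMod p × ZMod p)) (L Dn : ℕ)
    (hH : ∀ h ∈ H, h.2 ≠ 0 ∧ h.2 ≠ 1 ∧ err G (dil h.1 h.2) ≤ L)
    (htwo : ∃ h₁ ∈ H, ∃ h₂ ∈ H, h₁.1 ≠ h₂.1) (hcard : p ≤ Dn * #H) (hbig : 8 * Dn ≤ p) :
    #G * (p - #G) ≤ p * (4 * Dn * (48 * L)) := by
  classical
  obtain ⟨⟨v₁, c₁⟩, hm₁, ⟨v₂, c₂⟩, hm₂, hv⟩ := htwo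
  obtain ⟨hc₁, hc₁', he₁⟩ := hH _ hm₁
  obtain ⟨hc₂, hc₂', he₂⟩ := hH _ hm₂
  simp only at hv hc₁ hc₁' he₁ hc₂ hc₂' he₂
  -- a translation from a commutator
  set η := (1 - c₁) * (1 - c₂) * (v₁ - v₂) with hηdef
  have hη : η ≠ 0 := by
    refine mul_ne_zero (mul_ne_zero ?_ ?_) (sub_ne_zero.2 hv)
    · exact sub_ne_zero.2 (Ne.symm hc₁')
    · exact sub_ne_zero.2 (Ne.symm hc₂')
  have hηerr : terr G η ≤ 4 * L := by
    have h : Equiv.addRight η = dil v₁ c₁ * dil v₂ c₂ * (dil v₁ c₁)⁻¹ * (dil v₂ c₂)⁻¹ := by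
      refine Equiv.ext fun x => ?_
      simp only [Equiv.Perm.mul_apply, Equiv.coe_addRight, dil_apply hc₁, dil_apply hc₂,
        dil_inv_apply hc₁, dil_inv_apply hc₂, hηdef]
      field_simp
      ring
    have := err_mul G (dil v₁ c₁ * dil v₂ c₂ * (dil v₁ c₁)⁻¹) (dil v₂ c₂)⁻¹
    have := err_mul G (dil v₁ c₁ * dil v₂ c₂) (dil v₁ c₁)⁻¹
    have := err_mul G (dil v₁ c₁) (dil v₂ c₂)
    have := err_inv G (dil v₁ c₁)
    have := err_inv G (dil v₂ c₂)
    unfold terr
    rw [h]
    omega
  set A := H.image Prod.snd with hAdef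
  have hAne : A.Nonempty := ⟨c₁, mem_image.2 ⟨_, hm₁, rfl⟩⟩
  have hAmul : ∀ a ∈ A, ∀ t, terr G (a * t) ≤ terr G t + 2 * L := by
    intro a ha t
    obtain ⟨h, hh, rfl⟩ := mem_image.1 ha
    obtain ⟨h1, -, h3⟩ := hH h hh
    have := terr_conj G (v := h.1) h1 t
    omega
  -- translations from the most common multiplier
  obtain ⟨c, hcA, hcmax⟩ := exists_max_image A (fun c => #(H.filter fun h => h.2 = c)) hAne
  set Hc := H.filter fun h => h.2 = c with hHcdef
  have hHH : #H ≤ #A * #Hc := by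
    rw [card_eq_sum_card_image Prod.snd H]
    exact sum_le_card_nsmul _ _ _ hcmax
  obtain ⟨⟨v₀, c₀⟩, hm₀, rfl⟩ := mem_image.1 hcA
  obtain ⟨hc₀, hc₀', -⟩ := hH _ hm₀
  set B := Hc.image fun h => (1 - c₀) * (h.1 - v₀) with hBdef
  have hBc : #B = #Hc := by
    refine card_image_of_injOn fun h hh h' hh' e => ?_
    simp only [hHcdef, coe_filter, Set.mem_ofPred_eq] at hh hh'
    refine Prod.ext ?_ (hh.2.trans hh'.2.symm)
    have := mul_left_cancel₀ (sub_ne_zero.2 (Ne.symm hc₀')) e
    exact sub_left_injective this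
  have hBerr : ∀ b ∈ B, terr G b ≤ 2 * L := by
    intro b hb
    obtain ⟨h, hh, rfl⟩ := mem_image.1 hb
    obtain ⟨hhH, hhc⟩ := mem_filter.1 hh
    simp only at hhc
    have heq : Equiv.addRight ((1 - c₀) * (h.1 - v₀)) = dil h.1 c₀ * (dil v₀ c₀)⁻¹ := by
      refine Equiv.ext fun x => ?_
      simp only [Equiv.Perm.mul_apply, Equiv.coe_addRight, dil_apply hc₀, dil_inv_apply hc₀]
      field_simp
      ring
    have e1 : err G (dil h.1 c₀) ≤ L := hhc ▸ (hH h hhH).2.2
    have e2 : err G (dil v₀ c₀) ≤ L := (hH _ hm₀).2.2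
    have := err_mul G (dil h.1 c₀) (dil v₀ c₀)⁻¹
    have := err_inv G (dil v₀ c₀)
    unfold terr
    rw [heq]
    omega
  have hN : #H ≤ #A * #B := hBc ▸ hHH
  have hT : min (#A * #B) p ≤ 2 * #(Tset G (48 * L)) := by
    have hsub : ∀ K ≤ 48 * L, Tset G K ⊆ Tset G (48 * L) := fun K hK t ht =>
      mem_Tset.2 ((mem_Tset.1 ht).trans hK)
    by_cases hA2 : 2 ≤ #A
    · have hBne : B.Nonempty := ⟨_, mem_image.2 ⟨_, mem_filter.2 ⟨hm₀, rfl⟩, rfl⟩⟩
      refine (many_translations G A B η hη hA2 hBne (8 * L) ?_ ?_).trans ?_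
      · intro a ha b hb
        have := hAmul a ha b
        have := hBerr b hb
        omega
      · intro a ha a' ha'
        have := hAmul a ha (a' * η)
        have := hAmul a' ha' η
        omega
      · exact Nat.mul_le_mul_left _ (card_le_card (hsub _ (by omega)))
    · have hA1 : #A = 1 := by have := hAne.card_pos; omega
      have : B ⊆ Tset G (48 * L) := fun b hb => mem_Tset.2 (by have := hBerr b hb; omega)
      have := card_le_card this
      rw [hA1, one_mul]
      omega
  refine trivial_of_translations G (48 * L) (4 * Dn) ?_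
  set P := #(Tset G (48 * L))
  have h1 : p ≤ Dn * (#A * #B) := hcard.trans (Nat.mul_le_mul_left _ hN)
  have hD0 : 0 < Dn := by
    rcases Nat.eq_zero_or_pos Dn with h | h
    · have := hp.out.pos; simp [h] at h1; omega
    · exact h
  have h2 : p ≤ Dn * (2 * P) := by
    rcases le_total (#A * #B) p with hc | hc
    · rw [min_eq_left hc] at hT; exact h1.trans (Nat.mul_le_mul_left _ hT)
    · rw [min_eq_right hc] at hT; exact hT.trans (Nat.le_mul_of_pos_left _ hD0)
  have h3 : 4 * Dn * (P - 1) = 2 * (Dn * (2 * P)) - 4 * Dn := by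
    rw [Nat.mul_sub, mul_one]; ring_nf
  omega

end Vale.Agent.P045.Interior
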