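import Mathlib
import Vale.Agent.P045.Plane

/-!
# P045: lines covering the interior of a parabola have a low-rank coverage matrix

The exterior point with tangent parameters `x ≠ y` is covered iff `P x (y) + P y (x) = 0` for
polynomials `P x` of bounded degree.
-/

open Finset

namespace Vale.Agent.P045.Interior

variable {p : ℕ} [hp : Fact p.Prime]

/-- The point with tangent parameters `x`, `y`. -/
def pt (x y : ZMod p) : ZMod p × ZMod p := ((x + y) / 2, x * y)

/-- The equation of a line in tangent parameters. -/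
noncomputable def lineEq : PLine p → MvPolynomial (Fin 2) (ZMod p)
  | (none, b) => MvPolynomial.C (2⁻¹ : ZMod p) * (MvPolynomial.X 0 + MvPolynomial.X 1)
      - MvPolynomial.C b
  | (some a, b) => MvPolynomial.X 0 * MvPolynomial.X 1
      - MvPolynomial.C (a * 2⁻¹) * (MvPolynomial.X 0 + MvPolynomial.X 1) - MvPolynomial.C b

lemma degreeOf_lineEq (l : PLine p) (i : Fin 2) : (lineEq l).degreeOf i ≤ 1 := by
  have hX : ∀ j : Fin 2, (MvPolynomial.X j : MvPolynomial (Fin 2) (ZMod p)).degreeOf i
      = if i = j then 1 else 0 := fun j => MvPolynomial.degreeOf_X i j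
  have hadd : (MvPolynomial.X 0 + MvPolynomial.X 1 : MvPolynomial (Fin 2) (ZMod p)).degreeOf i
      ≤ 1 := by
    refine (MvPolynomial.degreeOf_add_le i _ _).trans ?_
    rw [hX, hX]
    split_ifs <;> simp
  have hmul : (MvPolynomial.X 0 * MvPolynomial.X 1 : MvPolynomial (Fin 2) (ZMod p)).degreeOf i
      ≤ 1 := by
    refine (MvPolynomial.degreeOf_mul_le i _ _).trans ?_
    rw [hX, hX]
    fin_cases i <;> simp
  obtain ⟨(_ | a), b⟩ := l <;> simp only [lineEq]
  · refine (MvPolynomial.degreeOf_sub_le i _ _).trans (max_le ?_ ?_)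
    · exact (MvPolynomial.degreeOf_C_mul_le _ i _).trans hadd
    · simp [MvPolynomial.degreeOf_C]
  · refine (MvPolynomial.degreeOf_sub_le i _ _).trans (max_le ?_ ?_)
    · refine (MvPolynomial.degreeOf_sub_le i _ _).trans (max_le hmul ?_)
      exact (MvPolynomial.degreeOf_C_mul_le _ i _).trans hadd
    · simp [MvPolynomial.degreeOf_C]

lemma mem_line_iff (l : PLine p) (x y : ZMod p) :
    pt x y ∈ linePts l ↔ MvPolynomial.eval ![x, y] (lineEq l) = 0 := by
  obtain ⟨(_ | a), b⟩ := l
  · simp only [mem_linePts_none, pt, lineEq, map_sub, map_mul, map_add, MvPolynomial.eval_C,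
      MvPolynomial.eval_X, sub_eq_zero, Matrix.cons_val_zero, Matrix.cons_val_one]
    rw [div_eq_inv_mul]
  · simp only [mem_linePts_some, pt, lineEq, map_sub, map_mul, map_add, MvPolynomial.eval_C,
      MvPolynomial.eval_X, Matrix.cons_val_zero, Matrix.cons_val_one]
    rw [sub_sub, sub_eq_zero, div_eq_mul_inv]
    ring_nf

/-- Functions of the form `(x - y) * (β y (x) + γ x (y))` with short polynomials. -/
def Rep (r : ℕ) (g : ZMod p → ZMod p → ZMod p) : Prop :=
  ∃ β γ : ZMod p → Polynomial (ZMod p), (∀ z, β z ∈ Polynomial.degreeLT (ZMod p) r) ∧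
    (∀ z, γ z ∈ Polynomial.degreeLT (ZMod p) r) ∧
    ∀ x y, g x y = (x - y) * ((β y).eval x + (γ x).eval y)

lemma Rep.zero {r : ℕ} : Rep r (fun _ _ => (0 : ZMod p)) :=
  ⟨fun _ => 0, fun _ => 0, fun _ => Submodule.zero_mem _, fun _ => Submodule.zero_mem _,
    fun _ _ => by simp⟩

lemma Rep.add {r : ℕ} {g g' : ZMod p → ZMod p → ZMod p} (h : Rep r g) (h' : Rep r g') :
    Rep r (fun x y => g x y + g' x y) := by
  obtain ⟨β, γ, hβ, hγ, hg⟩ := h
  obtain ⟨β', γ', hβ', hγ', hg'⟩ := h'
  refine ⟨fun z => β z + β' z, fun z => γ z + γ' z, fun z => Submodule.add_mem _ (hβ z) (hβ' z),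
    fun z => Submodule.add_mem _ (hγ z) (hγ' z), fun x y => ?_⟩
  simp only [hg, hg', Polynomial.eval_add]
  ring

lemma Rep.smul {r : ℕ} {g : ZMod p → ZMod p → ZMod p} (c : ZMod p) (h : Rep r g) :
    Rep r (fun x y => c * g x y) := by
  obtain ⟨β, γ, hβ, hγ, hg⟩ := h
  refine ⟨fun z => c • β z, fun z => c • γ z, fun z => Submodule.smul_mem _ _ (hβ z),
    fun z => Submodule.smul_mem _ _ (hγ z), fun x y => ?_⟩
  simp only [hg, Polynomial.eval_smul, smul_eq_mul]
  ring

lemma Rep.sum {r : ℕ} {ι : Type*} (s : Finset ι) (g : ι → ZMod p → ZMod p → ZMod p)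
    (h : ∀ i ∈ s, Rep r (g i)) : Rep r (fun x y => ∑ i ∈ s, g i x y) := by
  classical
  induction s using Finset.induction_on with
  | empty => simpa using Rep.zero (p := p) (r := r)
  | insert a s ha ih =>
    simp only [sum_insert ha]
    exact (h a (mem_insert_self _ _)).add (ih fun i hi => h i (mem_insert_of_mem hi))

/-- One round of the substitution `t ^ p → s`, `s ^ p → t` on exponents. -/
def red1 (p : ℕ) (d : ℕ × ℕ) : ℕ × ℕ := (d.1 % p + d.2 / p, d.2 % p + d.1 / p)

lemma rep_red1 {r : ℕ} {i j : ℕ} (hi : i < p + r) (hj : j < p + r) (hr : r ≤ p) :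
    Rep r (fun x y : ZMod p => x ^ i * y ^ j - x ^ (red1 p (i, j)).1 * y ^ (red1 p (i, j)).2) := by
  have hp0 := hp.out.pos
  have hsplit : ∀ m, m < p + r → (m / p = 0 ∧ m % p = m) ∨ (m / p = 1 ∧ m % p < r ∧ m = p + m % p) := by
    intro m hm
    rcases Nat.lt_or_ge m p with h | h
    · exact Or.inl ⟨Nat.div_eq_of_lt h, Nat.mod_eq_of_lt h⟩
    · have h1 : m / p = 1 := Nat.div_eq_of_lt_le (by omega) (by omega)
      have h2 := Nat.div_add_mod m p
      rw [h1, mul_one] at h2
      exact Or.inr ⟨h1, by omega, h2.symm⟩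
  have hpow : ∀ (z : ZMod p) (a : ℕ), z ^ (p + a) = z ^ (a + 1) := fun z a => by
    rw [pow_add, ZMod.pow_card, pow_succ']
  rcases hsplit i hi with ⟨a1, a2⟩ | ⟨a1, a2, a3⟩ <;> rcases hsplit j hj with ⟨b1, b2⟩ | ⟨b1, b2', b3⟩
  · simpa [red1, a1, a2, b1, b2] using Rep.zero (p := p) (r := r)
  · refine ⟨fun _ => 0, fun x => Polynomial.C (-(x ^ i)) * Polynomial.X ^ (j % p),
      fun _ => Submodule.zero_mem _, fun x => ?_, fun x y => ?_⟩
    · rw [Polynomial.mem_degreeLT]
      exact (Polynomial.degree_C_mul_X_pow_le _ _).trans_lt (WithBot.coe_lt_coe.2 b2')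
    · simp only [red1, a1, a2, b1, add_zero, Polynomial.eval_mul, Polynomial.eval_C,
        Polynomial.eval_pow, Polynomial.eval_X, Polynomial.eval_zero, zero_add]
      conv_lhs => arg 1; rw [b3, hpow]
      ring
  · refine ⟨fun y => Polynomial.C (y ^ j) * Polynomial.X ^ (i % p), fun _ => 0,
      fun y => ?_, fun _ => Submodule.zero_mem _, fun x y => ?_⟩
    · rw [Polynomial.mem_degreeLT]
      exact (Polynomial.degree_C_mul_X_pow_le _ _).trans_lt (WithBot.coe_lt_coe.2 a2)
    · simp only [red1, a1, b1, b2, add_zero, Polynomial.eval_mul, Polynomial.eval_C,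
        Polynomial.eval_pow, Polynomial.eval_X, Polynomial.eval_zero]
      conv_lhs => arg 1; rw [a3, hpow]
      ring
  · have : (fun x y : ZMod p => x ^ i * y ^ j - x ^ (red1 p (i, j)).1 * y ^ (red1 p (i, j)).2)
        = fun _ _ => 0 := by
      funext x y
      simp only [red1, a1, b1]
      conv_lhs => arg 1; rw [a3, b3, hpow, hpow]
      exact sub_self _
    rw [this]
    exact Rep.zero

lemma red1_red1_lt {r : ℕ} {i j : ℕ} (hi : i < p + r) (hj : j < p + r) (hr : r + 2 ≤ p) :
    (red1 p (red1 p (i, j))).1 < p ∧ (red1 p (red1 p (i, j))).2 < p ∧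
      (red1 p (i, j)).1 ≤ p ∧ (red1 p (i, j)).2 ≤ p := by
  have hp0 := hp.out.pos
  have hsplit : ∀ m, m < p + r → (m / p = 0 ∧ m % p = m ∧ m < p) ∨
      (m / p = 1 ∧ m % p = m - p ∧ p ≤ m) := by
    intro m hm
    rcases Nat.lt_or_ge m p with h | h
    · exact Or.inl ⟨Nat.div_eq_of_lt h, Nat.mod_eq_of_lt h, h⟩
    · have h1 : m / p = 1 := Nat.div_eq_of_lt_le (by omega) (by omega)
      have h2 := Nat.div_add_mod m p
      rw [h1, mul_one] at h2
      exact Or.inr ⟨h1, by omega, h⟩
  simp only [red1]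
  rcases hsplit i hi with ⟨a1, a2, a3⟩ | ⟨a1, a2, a3⟩ <;>
    rcases hsplit j hj with ⟨b1, b2, b3⟩ | ⟨b1, b2, b3⟩ <;> rw [a1, a2, b1, b2]
  all_goals
    refine ⟨?_, ?_, by omega, by omega⟩
  all_goals
    first
    | (rcases hsplit (i + 0) (by omega) with ⟨c1, c2, c3⟩ | ⟨c1, c2, c3⟩ <;>
        rcases hsplit (j + 0) (by omega) with ⟨e1, e2, e3⟩ | ⟨e1, e2, e3⟩ <;>
        simp only [add_zero] at * <;> omega)
    | (rcases hsplit (i + 1) (by omega) with ⟨c1, c2, c3⟩ | ⟨c1, c2, c3⟩ <;>
        rcases hsplit (j - p + 0) (by omega) with ⟨e1, e2, e3⟩ | ⟨e1, e2, e3⟩ <;>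
        simp only [add_zero] at * <;> omega)
    | (rcases hsplit (i - p + 0) (by omega) with ⟨c1, c2, c3⟩ | ⟨c1, c2, c3⟩ <;>
        rcases hsplit (j + 1) (by omega) with ⟨e1, e2, e3⟩ | ⟨e1, e2, e3⟩ <;>
        simp only [add_zero] at * <;> omega)
    | (rcases hsplit (i - p + 1) (by omega) with ⟨c1, c2, c3⟩ | ⟨c1, c2, c3⟩ <;>
        rcases hsplit (j - p + 1) (by omega) with ⟨e1, e2, e3⟩ | ⟨e1, e2, e3⟩ <;>
        omega)

/-- `t ^ (i + p * j)` is unchanged by a reduction round, in the field with `p ^ 2` elements. -/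
lemma pow_red1 {K : Type*} [Field K] [Fintype K] (hK : Fintype.card K = p ^ 2) (t : K) (i j : ℕ) :
    t ^ ((red1 p (i, j)).1 + p * (red1 p (i, j)).2) = t ^ (i + p * j) := by
  have hp0 := hp.out.pos
  have hfr : t ^ (p ^ 2) = t := hK ▸ FiniteField.pow_card t
  have hi := Nat.div_add_mod i p
  have hj' := Nat.div_add_mod j p
  simp only [red1]
  conv_rhs => rw [← hi, ← hj']
  have e1 : p * (i / p) + i % p + p * (p * (j / p) + j % p)
      = p ^ 2 * (j / p) + (i % p + p * (j % p + i / p)) := by ring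
  rw [e1, pow_add t (p ^ 2 * (j / p)), pow_mul t (p ^ 2), hfr,
    show i % p + j / p + p * (j % p + i / p) = j / p + (i % p + p * (j % p + i / p)) by ring,
    pow_add]

/-- If lines cover every interior point, exterior coverage has bounded rank. -/
theorem exists_rank (C : ℕ) (S : Finset (PLine p)) (hn : #S ≤ p + C) (hbig : C + 5 ≤ p)
    (hcov : ∀ x y : ZMod p, ¬ IsSquare (x ^ 2 - y) → ∃ l ∈ S, (x, y) ∈ linePts l) :
    ∃ P : ZMod p → Polynomial (ZMod p), (∀ z, P z ∈ Polynomial.degreeLT (ZMod p) (C + 2)) ∧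
      ∀ x y, x ≠ y → ((∃ l ∈ S, pt x y ∈ linePts l) ↔ (P x).eval y + (P y).eval x = 0) := by
  classical
  set r := C + 2 with hr
  have h2 : (2 : ZMod p) ≠ 0 := by
    intro h
    have h' : ((2 : ℕ) : ZMod p) = 0 := by exact_mod_cast h
    rw [ZMod.natCast_eq_zero_iff] at h'
    have := Nat.le_of_dvd (by norm_num) h'
    omega
  set T : MvPolynomial (Fin 2) (ZMod p) := ∏ l ∈ S, lineEq l with hT
  set F : MvPolynomial (Fin 2) (ZMod p) := (MvPolynomial.X 0 - MvPolynomial.X 1) * T with hF
  have hdegF : ∀ i, F.degreeOf i < p + r := by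
    intro i
    have h1 : T.degreeOf i ≤ p + C := by
      refine (MvPolynomial.degreeOf_prod_le i _ _).trans ?_
      exact (sum_le_card_nsmul _ _ 1 fun l _ => degreeOf_lineEq l i).trans (by simpa using hn)
    have h2' : (MvPolynomial.X 0 - MvPolynomial.X 1 : MvPolynomial (Fin 2) (ZMod p)).degreeOf i
        ≤ 1 := by
      refine (MvPolynomial.degreeOf_sub_le i _ _).trans (max_le ?_ ?_) <;>
        · rw [MvPolynomial.degreeOf_X]; split_ifs <;> simp
    have := MvPolynomial.degreeOf_mul_le i (MvPolynomial.X 0 - MvPolynomial.X 1) T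
    rw [← hF] at this
    omega
  have hexp : ∀ d ∈ F.support, d 0 < p + r ∧ d 1 < p + r := fun d hd =>
    ⟨(MvPolynomial.monomial_le_degreeOf 0 hd).trans_lt (hdegF 0),
      (MvPolynomial.monomial_le_degreeOf 1 hd).trans_lt (hdegF 1)⟩
  -- the quadratic extension
  let K := GaloisField p 2
  let : Fintype K := Fintype.ofFinite K
  have hK : Fintype.card K = p ^ 2 := by
    rw [← Nat.card_eq_fintype_card]; exact GaloisField.card p 2 (by norm_num)
  set alg := algebraMap (ZMod p) K with halg
  have h2K : (2 : K) ≠ 0 := by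
    rw [← map_ofNat alg]; exact (map_ne_zero alg).2 h2
  have hbase : ∀ z : K, z ^ p = z → ∃ w, alg w = z := by
    intro z hz
    have hsub : univ.image alg ⊆ (Polynomial.X ^ p - Polynomial.X : Polynomial K).roots.toFinset := by
      intro u hu
      obtain ⟨w, -, rfl⟩ := mem_image.1 hu
      rw [Multiset.mem_toFinset, Polynomial.mem_roots (FiniteField.X_pow_card_sub_X_ne_zero K hp.out.one_lt)]
      simp [← map_pow, ZMod.pow_card]
    have hle : #(Polynomial.X ^ p - Polynomial.X : Polynomial K).roots.toFinset ≤ #(univ.image alg) := by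
      rw [card_image_of_injective _ alg.injective, card_univ, ZMod.card]
      refine (Multiset.toFinset_card_le _).trans ((Polynomial.card_roots' _).trans_eq ?_)
      exact FiniteField.X_pow_card_sub_X_natDegree_eq K hp.out.one_lt
    have hzr : z ∈ (Polynomial.X ^ p - Polynomial.X : Polynomial K).roots.toFinset := by
      rw [Multiset.mem_toFinset, Polynomial.mem_roots (FiniteField.X_pow_card_sub_X_ne_zero K hp.out.one_lt)]
      simp [hz]
    rw [← eq_of_subset_of_card_le hsub hle] at hzr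
    obtain ⟨w, -, hw⟩ := mem_image.1 hzr
    exact ⟨w, hw⟩
  have haeval : ∀ t : K, MvPolynomial.aeval ![t, t ^ p] F = 0 := by
    intro t
    rw [hF, map_mul]
    by_cases ht : t ^ p = t
    · simp [ht]
    have hfr : t ^ p ^ 2 = t := hK ▸ FiniteField.pow_card t
    obtain ⟨x, hx⟩ : ∃ x, alg x = (t + t ^ p) / 2 := by
      refine hbase _ ?_
      rw [div_pow, add_pow_char, ← pow_mul, ← sq, hfr, add_comm]
      congr 1
      rw [← map_ofNat alg, ← map_pow, ZMod.pow_card]
    obtain ⟨y, hy⟩ : ∃ y, alg y = t * t ^ p := by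
      refine hbase _ ?_
      rw [mul_pow, ← pow_mul, ← sq, hfr, mul_comm]
    have hint : ¬ IsSquare (x ^ 2 - y) := by
      rintro ⟨s, hs⟩
      refine ht ?_
      have h1 : (alg x - t) ^ 2 = (alg s) ^ 2 := by
        have : alg (x ^ 2 - y) = alg (s * s) := by rw [hs]
        simp only [map_sub, map_pow, map_mul] at this
        have htp : t ^ p = 2 * alg x - t := by
          rw [hx, mul_div_cancel₀ _ h2K]; ring
        rw [hy, htp] at this
        linear_combination this
      have h2' : ∃ w, alg w = t := by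
        rcases sq_eq_sq_iff_eq_or_eq_neg.1 h1 with h | h
        · exact ⟨x - s, by rw [map_sub, ← h]; ring⟩
        · exact ⟨x + s, by rw [map_add]; linear_combination h⟩
      obtain ⟨w, rfl⟩ := h2'
      rw [← map_pow, ZMod.pow_card]
    obtain ⟨l, hl, hmem⟩ := hcov x y hint
    have hzero : MvPolynomial.aeval ![t, t ^ p] (lineEq l) = 0 := by
      obtain ⟨(_ | a), b⟩ := l
      · rw [mem_linePts_none] at hmem
        simp only at hmem
        simp only [lineEq, map_sub, map_mul, map_add, MvPolynomial.aeval_C, MvPolynomial.aeval_X,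
          Matrix.cons_val_zero, Matrix.cons_val_one, map_inv₀, map_ofNat]
        rw [← halg, ← hmem, hx, div_eq_inv_mul, sub_self]
      · rw [mem_linePts_some] at hmem
        simp only at hmem
        simp only [lineEq, map_sub, map_mul, map_add, MvPolynomial.aeval_C, MvPolynomial.aeval_X,
          Matrix.cons_val_zero, Matrix.cons_val_one, map_inv₀, map_ofNat]
        have := congrArg alg hmem
        rw [map_add, map_mul, hy, hx] at this
        rw [← halg]
        linear_combination this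
    rw [hT, map_prod, prod_eq_zero hl hzero, mul_zero]
  -- the reduced polynomial vanishes
  let e : (Fin 2 →₀ ℕ) → ℕ := fun d =>
    (red1 p (red1 p (d 0, d 1))).1 + p * (red1 p (red1 p (d 0, d 1))).2
  set Q : Polynomial K := ∑ d ∈ F.support, Polynomial.C (alg (F.coeff d)) * Polynomial.X ^ e d with hQ
  have hQ0 : Q = 0 := by
    refine Polynomial.eq_zero_of_natDegree_lt_card_of_eval_eq_zero Q
      (f := fun t : K => t) Function.injective_id (fun t => ?_) ?_
    · rw [hQ, Polynomial.eval_finsetSum]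
      simp only [Polynomial.eval_mul, Polynomial.eval_C, Polynomial.eval_pow, Polynomial.eval_X]
      refine (Eq.trans ?_ (haeval t))
      rw [MvPolynomial.aeval_def, MvPolynomial.eval₂_eq']
      refine sum_congr rfl fun d hd => ?_
      obtain ⟨h0, h1⟩ := hexp d hd
      rw [Fin.prod_univ_two]
      simp only [Matrix.cons_val_zero, Matrix.cons_val_one]
      rw [← pow_mul, ← pow_add, ← halg]
      congr 1
      simp only [e]
      rw [pow_red1 hK, pow_red1 hK]
    · rw [hK]
      refine lt_of_le_of_lt (Polynomial.natDegree_sum_le_of_forall_le (n := p ^ 2 - 1) _ _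
        fun d hd => ?_) (by have := hp.out.pos; have : 0 < p ^ 2 := by positivity
                            omega)
      obtain ⟨h0, h1⟩ := hexp d hd
      obtain ⟨a, b, -, -⟩ := red1_red1_lt (p := p) h0 h1 (by omega)
      refine (Polynomial.natDegree_C_mul_X_pow_le _ _).trans ?_
      simp only [e]
      have hb : p * ((red1 p (red1 p (d 0, d 1))).2 + 1) ≤ p * p := Nat.mul_le_mul_left _ b
      rw [sq]
      rw [mul_add, mul_one] at hb
      omega
  -- hence `F` has bounded rank on pairs of base points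
  have hfib : ∀ x y : ZMod p, ∑ d ∈ F.support,
      F.coeff d * (x ^ (red1 p (red1 p (d 0, d 1))).1 * y ^ (red1 p (red1 p (d 0, d 1))).2) = 0 := by
    intro x y
    have hval : ∀ d ∈ F.support, x ^ (red1 p (red1 p (d 0, d 1))).1
        * y ^ (red1 p (red1 p (d 0, d 1))).2 = x ^ (e d % p) * y ^ (e d / p) := by
      intro d hd
      obtain ⟨h0, h1⟩ := hexp d hd
      obtain ⟨a, -, -, -⟩ := red1_red1_lt (p := p) h0 h1 (by omega)
      simp only [e]
      rw [Nat.add_mul_mod_self_left, Nat.mod_eq_of_lt a, Nat.add_mul_div_left _ _ hp.out.pos,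
        Nat.div_eq_of_lt a, zero_add]
    rw [sum_congr rfl fun d hd => by rw [hval d hd],
      ← sum_fiberwise_of_maps_to (g := e) (t := F.support.image e) fun d hd => mem_image_of_mem _ hd]
    refine sum_eq_zero fun k _ => ?_
    rw [sum_congr rfl fun d hd => by rw [(mem_filter.1 hd).2], ← sum_mul]
    have hc : Q.coeff k = 0 := by rw [hQ0, Polynomial.coeff_zero]
    rw [hQ, Polynomial.finsetSum_coeff] at hc
    simp only [Polynomial.coeff_C_mul_X_pow] at hc
    rw [← sum_filter, ← map_sum, map_eq_zero] at hc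
    rw [sum_congr (filter_congr fun d _ => eq_comm) fun _ _ => rfl] at hc
    rw [hc, zero_mul]
  have hrep : Rep r (fun x y : ZMod p => MvPolynomial.eval ![x, y] F) := by
    have heq : (fun x y : ZMod p => MvPolynomial.eval ![x, y] F) = fun x y => ∑ d ∈ F.support,
        F.coeff d * ((x ^ d 0 * y ^ d 1 - x ^ (red1 p (d 0, d 1)).1 * y ^ (red1 p (d 0, d 1)).2)
          + (x ^ (red1 p (d 0, d 1)).1 * y ^ (red1 p (d 0, d 1)).2
            - x ^ (red1 p (red1 p (d 0, d 1))).1 * y ^ (red1 p (red1 p (d 0, d 1))).2)) := by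
      funext x y
      rw [MvPolynomial.eval_eq']
      simp only [Fin.prod_univ_two, Matrix.cons_val_zero, Matrix.cons_val_one]
      rw [← sub_zero (∑ d ∈ F.support, F.coeff d * (x ^ d 0 * y ^ d 1)), ← hfib x y, ← sum_sub_distrib]
      exact sum_congr rfl fun d _ => by ring
    rw [heq]
    refine Rep.sum _ _ fun d hd => Rep.smul _ ?_
    obtain ⟨h0, h1⟩ := hexp d hd
    obtain ⟨-, -, h3, h4⟩ := red1_red1_lt (p := p) h0 h1 (by omega)
    exact (rep_red1 h0 h1 (by omega)).add (rep_red1 (by omega) (by omega) (by omega))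
  obtain ⟨β, γ, hβ, hγ, hg⟩ := hrep
  refine ⟨fun z => (2⁻¹ : ZMod p) • (β z + γ z),
    fun z => Submodule.smul_mem _ _ (Submodule.add_mem _ (hβ z) (hγ z)), fun x y hxy => ?_⟩
  have hTval : ∀ u w : ZMod p, u ≠ w →
      MvPolynomial.eval ![u, w] T = (β w).eval u + (γ u).eval w := by
    intro u w huw
    have h := hg u w
    simp only [hF, map_mul, map_sub, MvPolynomial.eval_X, Matrix.cons_val_zero, Matrix.cons_val_one] at h
    exact mul_left_cancel₀ (sub_ne_zero.2 huw) h
  have hsym : MvPolynomial.eval ![x, y] T = MvPolynomial.eval ![y, x] T := by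
    simp only [hT, map_prod]
    refine prod_congr rfl fun l _ => ?_
    obtain ⟨(_ | a), b⟩ := l <;>
      simp only [lineEq, map_sub, map_mul, map_add, MvPolynomial.eval_C, MvPolynomial.eval_X,
        Matrix.cons_val_zero, Matrix.cons_val_one] <;> ring
  have hval : ((2⁻¹ : ZMod p) • (β x + γ x)).eval y + ((2⁻¹ : ZMod p) • (β y + γ y)).eval x
      = MvPolynomial.eval ![x, y] T := by
    simp only [Polynomial.eval_smul, Polynomial.eval_add, smul_eq_mul]
    have e1 := hTval x y hxy
    have e2 := hTval y x (Ne.symm hxy)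
    have h := mul_inv_cancel₀ h2
    linear_combination (-(2⁻¹ : ZMod p)) * e1 + (-(2⁻¹ : ZMod p)) * e2
      + (-(2⁻¹ : ZMod p)) * hsym + MvPolynomial.eval ![x, y] T * h
  rw [hval, hT, map_prod, prod_eq_zero_iff]
  simp only [mem_line_iff]

end Vale.Agent.P045.Interior
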