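import Mathlib
import Vale.Agent.P045.InteriorRank
import Vale.Agent.P045.InteriorAffine

/-!
# P045: lines as involutions of the tangent parameters
-/

open Finset

namespace Vale.Agent.P045.Interior

variable {p : ℕ} [hp : Fact p.Prime]

/-- The coefficient of `x * y` in the equation of a line. -/
def cA : PLine p → ZMod p
  | (none, _) => 0
  | (some _, _) => 1

/-- The coefficient of `x + y` in the equation of a line. -/
def cB : PLine p → ZMod p
  | (none, _) => 2⁻¹
  | (some a, _) => -(a * 2⁻¹)

/-- The constant coefficient in the equation of a line. -/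
def cC (l : PLine p) : ZMod p := -l.2

/-- The discriminant: zero exactly for tangents. -/
def disc (l : PLine p) : ZMod p := cB l ^ 2 - cA l * cC l

lemma mem_pt_iff (l : PLine p) (x y : ZMod p) :
    pt x y ∈ linePts l ↔ cA l * (x * y) + cB l * (x + y) + cC l = 0 := by
  rw [mem_line_iff]
  obtain ⟨(_ | a), b⟩ := l <;>
    simp only [lineEq, cA, cB, cC, map_sub, map_mul, map_add, MvPolynomial.eval_C,
      MvPolynomial.eval_X, Matrix.cons_val_zero, Matrix.cons_val_one] <;>
    ring_nf

lemma pt_comm (x y : ZMod p) : pt x y = pt y x := by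
  simp [pt, add_comm, mul_comm]

lemma den_ne {l : PLine p} (hD : disc l ≠ 0) {x y : ZMod p}
    (h : cA l * (x * y) + cB l * (x + y) + cC l = 0) : cA l * x + cB l ≠ 0 := by
  intro h0
  refine hD ?_
  unfold disc
  linear_combination (cB l + cA l * y) * h0 - cA l * h

/-- The involution of a line on tangent parameters; the pole stays. -/
def sigFun (l : PLine p) (x : ZMod p) : ZMod p :=
  if cA l * x + cB l = 0 then x else -(cB l * x + cC l) / (cA l * x + cB l)

lemma sigFun_eq {l : PLine p} {x : ZMod p} (h : cA l * x + cB l ≠ 0) :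
    cA l * (x * sigFun l x) + cB l * (x + sigFun l x) + cC l = 0 := by
  rw [sigFun, if_neg h]
  have h' : x * cA l + cB l ≠ 0 := by rwa [mul_comm]
  field_simp
  ring

lemma sigFun_unique {l : PLine p} (hD : disc l ≠ 0) {x y : ZMod p}
    (h : cA l * (x * y) + cB l * (x + y) + cC l = 0) : sigFun l x = y := by
  have h0 := den_ne hD h
  rw [sigFun, if_neg h0, div_eq_iff h0]
  linear_combination -h

lemma sigFun_involutive {l : PLine p} (hD : disc l ≠ 0) : Function.Involutive (sigFun l) := by
  intro x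
  by_cases h : cA l * x + cB l = 0
  · have : sigFun l x = x := by rw [sigFun, if_pos h]
    rw [this, this]
  · exact sigFun_unique hD (by linear_combination sigFun_eq h)

lemma mem_iff_sig {l : PLine p} (hD : disc l ≠ 0) (x y : ZMod p) :
    pt x y ∈ linePts l ↔ cA l * x + cB l ≠ 0 ∧ sigFun l x = y := by
  rw [mem_pt_iff]
  exact ⟨fun h => ⟨den_ne hD h, sigFun_unique hD h⟩, fun ⟨h, e⟩ => e ▸ sigFun_eq h⟩

/-- The parameters at which the involution is a genuine pair of a point of the line. -/
def valid (l : PLine p) : Finset (ZMod p) :=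
  univ.filter fun x => cA l * x + cB l ≠ 0 ∧ sigFun l x ≠ x

lemma mem_valid {l : PLine p} {x : ZMod p} :
    x ∈ valid l ↔ cA l * x + cB l ≠ 0 ∧ sigFun l x ≠ x := by
  simp [valid]

lemma pt_mem_of_valid {l : PLine p} {x : ZMod p} (h : x ∈ valid l) :
    pt x (sigFun l x) ∈ linePts l :=
  (mem_pt_iff _ _ _).2 (sigFun_eq (mem_valid.1 h).1)

lemma card_poles_le {l : PLine p} (hD : disc l ≠ 0) :
    #(univ.filter fun x => cA l * x + cB l = 0) ≤ 1 := by
  refine card_le_one.2 fun x hx y hy => ?_
  simp only [mem_filter, mem_univ, true_and] at hx hy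
  by_cases hA : cA l = 0
  · rw [hA, zero_mul, zero_add] at hx
    exact absurd (by simp [disc, hA, hx]) hD
  · exact mul_left_cancel₀ hA (add_right_cancel (hx.trans hy.symm))

lemma two_ne (h : 3 ≤ p) : (2 : ZMod p) ≠ 0 := by
  intro h'
  have h2 : ((2 : ℕ) : ZMod p) = 0 := by exact_mod_cast h'
  rw [ZMod.natCast_eq_zero_iff] at h2
  have := Nat.le_of_dvd (by norm_num) h2
  omega

lemma card_roots_two {a b c : ZMod p} (h : a ≠ 0 ∨ b ≠ 0) :
    #(univ.filter fun x => a * x ^ 2 + b * x + c = 0) ≤ 2 := by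
  classical
  rcases (univ.filter fun x => a * x ^ 2 + b * x + c = 0).eq_empty_or_nonempty with e | ⟨x₀, hx₀⟩
  · simp [e]
  refine (card_le_card (t := {x₀, -(b / a) - x₀}) fun x hx => ?_).trans card_le_two
  simp only [mem_filter, mem_univ, true_and] at hx hx₀
  simp only [mem_insert, mem_singleton]
  have h' : (x - x₀) * (a * (x + x₀) + b) = 0 := by linear_combination hx - hx₀
  rcases mul_eq_zero.1 h' with e | e
  · exact Or.inl (sub_eq_zero.1 e)
  · by_cases ha : a = 0
    · rw [ha, zero_mul, zero_add] at e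
      exact absurd e (h.resolve_left (not_not.2 ha))
    · right
      field_simp
      linear_combination e

lemma card_valid_compl {l : PLine p} (hD : disc l ≠ 0) (h3 : 3 ≤ p) : #(valid l)ᶜ ≤ 3 := by
  classical
  have h : (valid l)ᶜ ⊆ (univ.filter fun x => cA l * x + cB l = 0) ∪
      univ.filter fun x => cA l * x ^ 2 + 2 * cB l * x + cC l = 0 := by
    intro x hx
    simp only [mem_compl, mem_valid, not_and, not_not] at hx
    by_cases h0 : cA l * x + cB l = 0
    · exact mem_union_left _ (by simpa using h0)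
    · refine mem_union_right _ ?_
      have := sigFun_eq h0
      rw [hx h0] at this
      simp only [mem_filter, mem_univ, true_and]
      linear_combination this
  refine (card_le_card h).trans ((card_union_le _ _).trans ?_)
  have h1 := card_poles_le hD
  have h2 : cA l ≠ 0 ∨ 2 * cB l ≠ 0 := by
    by_contra hc
    push Not at hc
    refine hD ?_
    have : cB l = 0 := (mul_eq_zero.1 hc.2).resolve_left (two_ne h3)
    simp [disc, hc.1, this]
  have := card_roots_two (c := cC l) h2
  omega

/-- The permutation of a line. -/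
noncomputable def sig (l : PLine p) : Equiv.Perm (ZMod p) :=
  if h : disc l ≠ 0 then (sigFun_involutive h).toPerm _ else 1

lemma sig_apply {l : PLine p} (hD : disc l ≠ 0) (x : ZMod p) : sig l x = sigFun l x := by
  rw [sig, dif_pos hD]; rfl

/-- Parameters at which two lines give the same pair. -/
lemma card_agree_le {l l' : PLine p} (hne : l ≠ l') (h3' : 3 ≤ p) :
    #((valid l ∩ valid l').filter fun x => sigFun l x = sigFun l' x) ≤ 2 := by
  classical
  rcases ((valid l ∩ valid l').filter fun x => sigFun l x = sigFun l' x).eq_empty_or_nonempty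
    with e | ⟨x₀, hx₀⟩
  · simp [e]
  refine (card_le_card (t := {x₀, sigFun l x₀}) fun x hx => ?_).trans card_le_two
  simp only [mem_filter, mem_inter] at hx hx₀
  have h1 := pt_mem_of_valid hx.1.1
  have h2 : pt x (sigFun l x) ∈ linePts l' := hx.2 ▸ pt_mem_of_valid hx.1.2
  have h3 := pt_mem_of_valid hx₀.1.1
  have h4 : pt x₀ (sigFun l x₀) ∈ linePts l' := hx₀.2 ▸ pt_mem_of_valid hx₀.1.2
  have heq := card_le_one.1 (linePts_meet_le l l' hne) _ (mem_inter.2 ⟨h1, h2⟩) _
    (mem_inter.2 ⟨h3, h4⟩)
  simp only [pt, Prod.ext_iff] at heq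
  obtain ⟨ha, hb⟩ := heq
  simp only [mem_insert, mem_singleton]
  have h22 := two_ne (p := p) h3'
  have hs : x + sigFun l x = x₀ + sigFun l x₀ := (div_left_inj' h22).1 ha
  have h' : (x - x₀) * (x - sigFun l x₀) = 0 := by linear_combination x * hs - hb
  rcases mul_eq_zero.1 h' with e | e
  · exact Or.inl (sub_eq_zero.1 e)
  · exact Or.inr (sub_eq_zero.1 e)

/-- The Cayley–Klein form of a line at a point `z` of the parameter line. -/
lemma conj_formula {l : PLine p} {x y z t : ZMod p} (hD : disc l ≠ 0)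
    (hxy : cA l * (x * y) + cB l * (x + y) + cC l = 0)
    (hzt : cA l * (z * t) + cB l * (z + t) + cC l = 0) (hx : x ≠ z) (hy : y ≠ z) (ht : t ≠ z) :
    (cA l * z ^ 2 + 2 * cB l * z + cC l) ≠ 0 ∧
      ((x - z)⁻¹ - (t - z)⁻¹) * ((y - z)⁻¹ - (t - z)⁻¹)
        = disc l / (cA l * z ^ 2 + 2 * cB l * z + cC l) ^ 2 := by
  set A₀ := cA l * z ^ 2 + 2 * cB l * z + cC l with hA₀
  have hden := den_ne hD hzt
  have h1 : (t - z) * (cA l * z + cB l) = -A₀ := by rw [hA₀]; linear_combination hzt
  have hne : A₀ ≠ 0 := by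
    intro h0
    rw [h0, neg_zero] at h1
    exact (mul_ne_zero (sub_ne_zero.2 ht) hden) h1
  refine ⟨hne, ?_⟩
  set u := (x - z)⁻¹
  set w := (y - z)⁻¹
  set v := (t - z)⁻¹
  have hu : u * (x - z) = 1 := inv_mul_cancel₀ (sub_ne_zero.2 hx)
  have hw : w * (y - z) = 1 := inv_mul_cancel₀ (sub_ne_zero.2 hy)
  have hv : v * (t - z) = 1 := inv_mul_cancel₀ (sub_ne_zero.2 ht)
  have hBv : A₀ * v = -(cA l * z + cB l) := by
    linear_combination v * h1 - (cA l * z + cB l) * hv
  have hq : A₀ * u * w + (cA l * z + cB l) * (u + w) + cA l = 0 := by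
    rw [hA₀]
    linear_combination (u * w) * hxy - cA l * (w * (y - z)) * hu - cA l * hw
      - (cA l * z + cB l) * w * hu - (cA l * z + cB l) * u * hw
  rw [eq_div_iff (pow_ne_zero _ hne)]
  unfold disc
  have hDinv : cB l ^ 2 - cA l * cC l = (cA l * z + cB l) ^ 2 - cA l * A₀ := by rw [hA₀]; ring
  linear_combination A₀ * hq - hDinv + (-A₀ * u - A₀ * w + A₀ * v - (cA l * z + cB l)) * hBv

end Vale.Agent.P045.Interior
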