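import Mathlib
import Vale.Agent.P045.InteriorLines

/-!
# P045: small line covers of the interior of a parabola are near pencils

For fixed `C` and a large prime `p`, at most `p + C` lines covering every interior point of
`y = x ^ 2` leave only `O(p)` points of the plane uncovered, hence have all but boundedly many
of their lines in one pencil or one parallel class.
-/

open Finset
open scoped Classical

namespace Vale.Agent.P045.Interior

variable {p : ℕ} [hp : Fact p.Prime]

/-- The number of lines through the pair `x`, `y`. -/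
noncomputable def pmult (S : Finset (PLine p)) (z : ZMod p × ZMod p) : ℕ :=
  #(S.filter fun l => z.1 ∈ valid l ∧ sigFun l z.1 = z.2)

lemma pair_sq_le (S : Finset (PLine p)) (h3 : 3 ≤ p) (hS : #S ≤ 2 * p)
    (P : Finset (ZMod p × ZMod p)) :
    (∑ z ∈ P, pmult S z) ^ 2 ≤ #P * (10 * p ^ 2) := by
  refine sq_sum_le_card_mul_sum_sq.trans (Nat.mul_le_mul_left _ ?_)
  calc ∑ z ∈ P, pmult S z ^ 2 ≤ ∑ z : ZMod p × ZMod p, pmult S z ^ 2 :=
        sum_le_sum_of_subset (subset_univ _)
    _ = ∑ l ∈ S, ∑ l' ∈ S, #((valid l ∩ valid l').filter fun x => sigFun l x = sigFun l' x) := by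
        simp only [pmult, card_filter, sq, sum_mul_sum]
        rw [sum_comm]
        refine sum_congr rfl fun l _ => ?_
        rw [sum_comm]
        refine sum_congr rfl fun l' _ => ?_
        rw [Fintype.sum_prod_type]
        have hin : ∀ x : ZMod p, (∑ y : ZMod p, (if x ∈ valid l ∧ sigFun l x = y then 1 else 0)
            * (if x ∈ valid l' ∧ sigFun l' x = y then 1 else 0))
            = if x ∈ valid l ∩ valid l' ∧ sigFun l x = sigFun l' x then 1 else 0 := by
          intro x
          rw [sum_eq_single (sigFun l x) (fun y _ hy => by simp [Ne.symm hy]) (by simp)]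
          simp only [mem_inter]
          split_ifs <;> simp_all
        rw [sum_congr rfl fun x _ => hin x, ← card_filter, ← card_filter]
        congr 1
        ext x
        simp
    _ ≤ ∑ l ∈ S, ∑ l' ∈ S, ((if l = l' then p else 0) + 2) := by
        refine sum_le_sum fun l _ => sum_le_sum fun l' _ => ?_
        split_ifs with h
        · refine (card_le_univ _).trans ?_
          rw [ZMod.card]; omega
        · rw [zero_add]; exact card_agree_le h h3
    _ ≤ 10 * p ^ 2 := by
        simp only [sum_add_distrib, sum_ite_eq, sum_const, smul_eq_mul]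
        rw [sum_congr rfl fun l hl => if_pos hl, sum_const, smul_eq_mul]
        nlinarith

/-- Incidences at valid parameters are bounded below. -/
lemma sum_pmult_univ (S : Finset (PLine p)) :
    ∑ z : ZMod p × ZMod p, pmult S z = ∑ l ∈ S, #(valid l) := by
  simp only [pmult, card_filter]
  rw [sum_comm]
  refine sum_congr rfl fun l _ => ?_
  rw [Fintype.sum_prod_type]
  have : ∀ x : ZMod p, (∑ y : ZMod p, if x ∈ valid l ∧ sigFun l x = y then 1 else 0)
      = if x ∈ valid l then 1 else 0 := by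
    intro x
    by_cases h : x ∈ valid l <;> simp [h]
  rw [sum_congr rfl fun x _ => this x, ← card_filter]
  congr 1
  ext x; simp

/-- Pairs of distinct parameters covered by a line. -/
noncomputable def covered (S : Finset (PLine p)) : Finset (ZMod p × ZMod p) :=
  univ.filter fun z => z.1 ≠ z.2 ∧ ∃ l ∈ S, pt z.1 z.2 ∈ linePts l

lemma pmult_eq_zero {S : Finset (PLine p)} {z : ZMod p × ZMod p}
    (hz : z ∉ covered S) : pmult S z = 0 := by
  rw [pmult, card_eq_zero, filter_eq_empty_iff]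
  rintro l hl ⟨hv, he⟩
  refine hz (mem_filter.2 ⟨mem_univ _, ?_, l, hl, he ▸ pt_mem_of_valid hv⟩)
  rw [← he]; exact Ne.symm (mem_valid.1 hv).2

lemma valid_of_mem {l : PLine p} (hD : disc l ≠ 0) {x y : ZMod p} (hxy : x ≠ y)
    (h : pt x y ∈ linePts l) : x ∈ valid l ∧ sigFun l x = y := by
  obtain ⟨h1, h2⟩ := (mem_iff_sig hD x y).1 h
  exact ⟨mem_valid.2 ⟨h1, by rw [h2]; exact Ne.symm hxy⟩, h2⟩

/-- A positive fraction of the exterior is covered. -/
lemma covered_large (S : Finset (PLine p)) (hD : ∀ l ∈ S, disc l ≠ 0) (hS : #S ≤ 2 * p)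
    (hS' : p ≤ #S + 4) (hp12 : 20 ≤ p) : p ^ 2 ≤ 40 * #(covered S) := by
  have h1 : (p - 4) * (p - 3) ≤ ∑ l ∈ S, #(valid l) := by
    refine le_trans ?_ (card_nsmul_le_sum S _ (p - 3) fun l hl => ?_)
    · rw [smul_eq_mul]; exact Nat.mul_le_mul_right _ (by omega)
    · have := card_valid_compl (hD l hl) (by omega)
      rw [card_compl, ZMod.card] at this
      omega
  rw [← sum_pmult_univ] at h1
  have h2 : ∑ z : ZMod p × ZMod p, pmult S z = ∑ z ∈ covered S, pmult S z :=
    (sum_subset (subset_univ _) fun z _ hz => pmult_eq_zero hz).symm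
  have h3 := pair_sq_le S (by omega) hS (covered S)
  rw [← h2] at h3
  have h4 : p * p ≤ 2 * ((p - 4) * (p - 3)) := by
    obtain ⟨k, rfl⟩ : ∃ k, p = k + 20 := ⟨p - 20, by omega⟩
    rw [show k + 20 - 4 = k + 16 by omega, show k + 20 - 3 = k + 17 by omega]
    nlinarith
  have h5 : (p * p) ^ 2 ≤ (2 * ∑ z : ZMod p × ZMod p, pmult S z) ^ 2 :=
    Nat.pow_le_pow_left (h4.trans (Nat.mul_le_mul_left 2 h1)) 2
  refine Nat.le_of_mul_le_mul_right (c := p ^ 2) ?_ (by positivity)
  rw [mul_pow] at h5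
  nlinarith

/-- Some `r` distinct parameters have many common partners. -/
lemma exists_tuple (E : Finset (ZMod p × ZMod p)) (r : ℕ) (hr : 1 ≤ r) (hE : p ^ 2 ≤ 40 * #E)
    (hbig : 2 * 40 ^ r * r ^ 2 < p) :
    ∃ f : Fin r → ZMod p, Function.Injective f ∧
      p ≤ 2 * 40 ^ r * #(univ.filter fun x => ∀ i, (x, f i) ∈ E) := by
  let M : (Fin r → ZMod p) → ℕ := fun f => #(univ.filter fun x => ∀ i, (x, f i) ∈ E)
  by_contra hc
  push Not at hc
  have hd : ∑ x, #(univ.filter fun y => (x, y) ∈ E) = #E := by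
    rw [card_eq_sum_card_fiberwise (f := Prod.fst) (t := univ) (fun _ _ => mem_univ _)]
    refine sum_congr rfl fun x _ => card_nbij' (fun y => (x, y)) Prod.snd ?_ ?_ ?_ ?_
    · intro y hy; simpa using hy
    · rintro ⟨a, b⟩ hz; simp only [coe_filter, Set.mem_ofPred_eq] at hz ⊢; exact ⟨mem_univ _, hz.2 ▸ hz.1⟩
    · intro y _; rfl
    · rintro ⟨a, b⟩ hz; simp only [coe_filter, Set.mem_ofPred_eq] at hz; rw [hz.2]
  have hsum : ∑ f, M f = ∑ x, #(univ.filter fun y => (x, y) ∈ E) ^ r := by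
    simp only [M, card_filter]
    rw [sum_comm]
    refine sum_congr rfl fun x _ => ?_
    rw [← card_filter, ← card_filter]
    have : (univ.filter fun f : Fin r → ZMod p => ∀ i, (x, f i) ∈ E)
        = Fintype.piFinset fun _ : Fin r => univ.filter fun y => (x, y) ∈ E := by
      ext f; simp [Fintype.mem_piFinset]
    rw [this, Fintype.card_piFinset, prod_const, card_univ, Fintype.card_fin]
  obtain ⟨k, rfl⟩ : ∃ k, r = k + 1 := ⟨r - 1, by omega⟩
  have hpm : #E ^ (k + 1) ≤ p ^ k * ∑ f, M f := by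
    rw [hsum, ← hd]
    have := pow_sum_le_card_mul_sum_pow (s := (univ : Finset (ZMod p)))
      (f := fun x => #(univ.filter fun y => (x, y) ∈ E)) (fun _ _ => Nat.zero_le _) k
    simpa [ZMod.card] using this
  -- few tuples are not injective
  set N := (univ : Finset (Fin (k + 1) → ZMod p)).filter fun f => ¬ Function.Injective f with hN
  have hNcard : #N ≤ (k + 1) ^ 2 * p ^ k := by
    have hsub : N ⊆ (univ.filter fun ij : Fin (k + 1) × Fin (k + 1) => ij.1 ≠ ij.2).biUnion
        fun ij => univ.filter fun f => f ij.1 = f ij.2 := by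
      intro f hf
      have hf' : ¬ Function.Injective f := by rw [hN] at hf; exact (mem_filter.1 hf).2
      simp only [Function.Injective] at hf'
      push Not at hf'
      obtain ⟨i, j, h1, h2⟩ := hf'
      exact mem_biUnion.2 ⟨(i, j), by simp [h2], by simp [h1]⟩
    refine (card_le_card hsub).trans ((card_biUnion_le_card_mul _ _ (p ^ k) ?_).trans ?_)
    · intro ij hij
      simp only [mem_filter, mem_univ, true_and] at hij
      have hcard : #(univ : Finset (Fin k → ZMod p)) = p ^ k := by simp [ZMod.card]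
      rw [← hcard]
      refine card_le_card_of_injOn (fun f => f ∘ ij.1.succAbove) (fun _ _ => mem_univ _) ?_
      intro f hf g hg hfg
      simp only [coe_filter, mem_univ, true_and, Set.mem_ofPred_eq] at hf hg
      funext t
      rcases Fin.eq_self_or_eq_succAbove ij.1 t with rfl | ⟨s, rfl⟩
      · obtain ⟨s, hs⟩ := Fin.exists_succAbove_eq (Ne.symm hij)
        rw [hf, hg, ← hs]; exact congrFun hfg s
      · exact congrFun hfg s
    · refine Nat.mul_le_mul_right _ ((card_filter_le _ _).trans (le_of_eq ?_))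
      simp [sq]
  set D := 2 * 40 ^ (k + 1) with hDdef
  have hsplit : D * ∑ f, M f ≤ p ^ (k + 1) * p + D * ((k + 1) ^ 2 * p ^ k * p) := by
    rw [← sum_filter_add_sum_filter_not univ (fun f => Function.Injective f) M, mul_add]
    refine add_le_add ?_ (Nat.mul_le_mul_left _ ?_)
    · rw [mul_sum]
      refine (sum_le_card_nsmul _ _ p fun f hf => (hc f (mem_filter.1 hf).2).le).trans ?_
      rw [smul_eq_mul]
      refine Nat.mul_le_mul_right _ ((card_filter_le _ _).trans_eq ?_)
      simp [ZMod.card]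
    · refine (sum_le_card_nsmul _ _ p fun f _ => ?_).trans ?_
      · exact (card_le_univ _).trans_eq (ZMod.card p)
      · rw [smul_eq_mul, ← hN]
        exact Nat.mul_le_mul_right _ hNcard
  have h1 : (p ^ 2) ^ (k + 1) ≤ 40 ^ (k + 1) * (p ^ k * ∑ f, M f) :=
    (Nat.pow_le_pow_left hE _).trans (by rw [mul_pow]; exact Nat.mul_le_mul_left _ hpm)
  have h2 : 2 * (p ^ 2) ^ (k + 1) ≤ p ^ k * (p ^ (k + 1) * p + D * ((k + 1) ^ 2 * p ^ k * p)) := by
    calc 2 * (p ^ 2) ^ (k + 1) ≤ 2 * (40 ^ (k + 1) * (p ^ k * ∑ f, M f)) :=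
          Nat.mul_le_mul_left _ h1
      _ = p ^ k * (D * ∑ f, M f) := by rw [hDdef]; ring
      _ ≤ _ := Nat.mul_le_mul_left _ hsplit
  have h3 : p ^ k * (p ^ (k + 1) * p + D * ((k + 1) ^ 2 * p ^ k * p))
      = p ^ (2 * k + 1) * (p + D * (k + 1) ^ 2) := by ring
  have h4 : 2 * (p ^ 2) ^ (k + 1) = p ^ (2 * k + 1) * (2 * p) := by
    rw [← pow_mul]; ring
  rw [h3, h4] at h2
  have := Nat.le_of_mul_le_mul_left h2 (pow_pos hp.out.pos _)
  omega

lemma eq_zero_of_card_roots {q : Polynomial (ZMod p)} {r : ℕ}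
    (hq : q ∈ Polynomial.degreeLT (ZMod p) r) (T : Finset (ZMod p)) (hT : ∀ x ∈ T, q.eval x = 0)
    (hr : r ≤ #T) : q = 0 :=
  Polynomial.eq_zero_of_degree_lt_of_eval_finset_eq_zero T
    ((Polynomial.mem_degreeLT.1 hq).trans_le (Nat.cast_le.2 hr)) hT

/-- A large rectangle in the coverage pattern, with few partners from outside. -/
lemma exists_piece (S : Finset (PLine p)) (hD : ∀ l ∈ S, disc l ≠ 0) (hS : #S ≤ 2 * p)
    (hS' : p ≤ #S + 4) (r : ℕ) (hr : 1 ≤ r) (hbig : 2 * 40 ^ r * r ^ 2 < p) (h20 : 20 ≤ p)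
    (P : ZMod p → Polynomial (ZMod p)) (hP : ∀ z, P z ∈ Polynomial.degreeLT (ZMod p) r)
    (hcov : ∀ x y, x ≠ y → ((∃ l ∈ S, pt x y ∈ linePts l) ↔ (P x).eval y + (P y).eval x = 0)) :
    ∃ X Y : Finset (ZMod p), p ≤ 2 * 40 ^ r * #X ∧
      (∀ x ∈ X, ∀ y ∈ Y, x ≠ y → ∃ l ∈ S, pt x y ∈ linePts l) ∧
      (∀ y ∉ Y, #(X.filter fun x => (x, y) ∈ covered S) ≤ r) ∧
      (∀ x ∉ X, #(Y.filter fun y => (x, y) ∈ covered S) ≤ r) := by
  obtain ⟨f, hf, hcard⟩ := exists_tuple (covered S) r hr (covered_large S hD hS hS' h20) hbig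
  let X := univ.filter fun x => ∀ i, (P x).eval (f i) + (P (f i)).eval x = 0
  let bas : Fin r → Polynomial (ZMod p) := fun i => Lagrange.basis univ f i
  let R : ZMod p → Polynomial (ZMod p) := fun y => ∑ i, (bas i).eval y • P (f i)
  let Y := univ.filter fun y => P y = R y
  have hinjOn : Set.InjOn f ((univ : Finset (Fin r)) : Set (Fin r)) := hf.injOn
  have hinterp : ∀ q ∈ Polynomial.degreeLT (ZMod p) r, ∀ y,
      q.eval y = ∑ i, q.eval (f i) * (bas i).eval y := by
    intro q hq y
    have h := Lagrange.eq_interpolate (s := (univ : Finset (Fin r))) (v := f) hinjOn (f := q)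
      (by simpa using Polynomial.mem_degreeLT.1 hq)
    conv_lhs => rw [h, Lagrange.interpolate_apply, Polynomial.eval_finsetSum]
    exact sum_congr rfl fun i _ => by simp [bas]
  have hRdeg : ∀ y, R y ∈ Polynomial.degreeLT (ZMod p) r := fun y =>
    Submodule.sum_mem _ fun i _ => Submodule.smul_mem _ _ (hP _)
  have hRv : ∀ y x, (R y).eval x = ∑ i, (bas i).eval y * (P (f i)).eval x := fun y x => by
    simp [R, Polynomial.eval_finsetSum]
  have hkey : ∀ x ∈ X, ∀ y, (P x).eval y + (P y).eval x = (P y - R y).eval x := by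
    intro x hx y
    rw [hinterp (P x) (hP x) y, Polynomial.eval_sub, hRv, sub_eq_neg_add, ← sum_neg_distrib]
    congr 1
    refine sum_congr rfl fun i _ => ?_
    linear_combination ((bas i).eval y) * (mem_filter.1 hx).2 i
  refine ⟨X, Y, hcard.trans (Nat.mul_le_mul_left _ (card_le_card ?_)), ?_, ?_, ?_⟩
  · intro x hx
    refine mem_filter.2 ⟨mem_univ _, fun i => ?_⟩
    obtain ⟨-, hne, hex⟩ := mem_filter.1 ((mem_filter.1 hx).2 i)
    exact (hcov x (f i) hne).1 hex
  · intro x hx y hy hxy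
    refine (hcov x y hxy).2 ?_
    rw [hkey x hx y, (mem_filter.1 hy).2, sub_self, Polynomial.eval_zero]
  · intro y hy
    by_contra hlt
    refine hy (mem_filter.2 ⟨mem_univ _, sub_eq_zero.1 (eq_zero_of_card_roots
      (Submodule.sub_mem _ (hP y) (hRdeg y)) (X.filter fun x => (x, y) ∈ covered S)
      (fun x hx => ?_) (by omega))⟩)
    obtain ⟨hxX, hxc⟩ := mem_filter.1 hx
    obtain ⟨-, hne, hex⟩ := mem_filter.1 hxc
    rw [← hkey x hxX y]
    exact (hcov x y hne).1 hex
  · intro x hx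
    by_contra hlt
    set Sx := P x + ∑ i, (P (f i)).eval x • bas i with hSx
    have hdeg : Sx ∈ Polynomial.degreeLT (ZMod p) r := by
      refine Submodule.add_mem _ (hP x) (Submodule.sum_mem _ fun i _ => Submodule.smul_mem _ _ ?_)
      rw [Polynomial.mem_degreeLT, Lagrange.degree_basis hinjOn (mem_univ i)]
      simp only [card_univ, Fintype.card_fin]
      exact Nat.cast_lt.2 (Nat.sub_lt hr one_pos)
    have hzero : Sx = 0 := by
      refine eq_zero_of_card_roots hdeg (Y.filter fun y => (x, y) ∈ covered S) (fun y hy => ?_)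
        (by omega)
      obtain ⟨hyY, hyc⟩ := mem_filter.1 hy
      obtain ⟨-, hne, hex⟩ := mem_filter.1 hyc
      have h := (hcov x y hne).1 hex
      rw [(mem_filter.1 hyY).2, hRv] at h
      rw [hSx, Polynomial.eval_add, Polynomial.eval_finsetSum, ← h]
      congr 1
      exact sum_congr rfl fun i _ => by rw [Polynomial.eval_smul, smul_eq_mul, mul_comm]
    refine hx (mem_filter.2 ⟨mem_univ _, fun i => ?_⟩)
    have h := congrArg (Polynomial.eval (f i)) hzero
    rw [hSx, Polynomial.eval_add, Polynomial.eval_finsetSum, Polynomial.eval_zero] at h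
    rw [sum_eq_single i (fun j _ hj => ?_) (by simp)] at h
    · simpa [bas, Lagrange.eval_basis_self hinjOn (mem_univ i)] using h
    · simp [bas, Lagrange.eval_basis_of_ne hj (mem_univ i)]

/-- Incidences leaving the rectangle. -/
lemma escape_sq_le (S : Finset (PLine p)) (h3 : 3 ≤ p) (hS : #S ≤ 2 * p) (X Y : Finset (ZMod p))
    (r : ℕ) (hY : ∀ y ∉ Y, #(X.filter fun x => (x, y) ∈ covered S) ≤ r) :
    (∑ l ∈ S, #(X.filter fun x => x ∈ valid l ∧ sigFun l x ∉ Y)) ^ 2
      ≤ #Yᶜ * r * (10 * p ^ 2) := by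
  let P := (covered S).filter fun z => z.1 ∈ X ∧ z.2 ∉ Y
  have hP : #P ≤ #Yᶜ * r := by
    have hsub : P ⊆ Yᶜ.biUnion fun y => (X.filter fun x => (x, y) ∈ covered S).image fun x => (x, y) := by
      rintro ⟨x, y⟩ hz
      obtain ⟨h1, h2, h3⟩ := mem_filter.1 hz
      exact mem_biUnion.2 ⟨y, mem_compl.2 h3, mem_image.2 ⟨x, mem_filter.2 ⟨h2, h1⟩, rfl⟩⟩
    exact (card_le_card hsub).trans (card_biUnion_le_card_mul _ _ r fun y hy =>
      card_image_le.trans (hY y (mem_compl.1 hy)))
  have hsum : ∑ l ∈ S, #(X.filter fun x => x ∈ valid l ∧ sigFun l x ∉ Y) ≤ ∑ z ∈ P, pmult S z := by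
    have e : ∀ l ∈ S, #(X.filter fun x => x ∈ valid l ∧ sigFun l x ∉ Y)
        ≤ ∑ z ∈ P, if z.1 ∈ valid l ∧ sigFun l z.1 = z.2 then 1 else 0 := by
      intro l hl
      rw [← card_filter]
      refine card_le_card_of_injOn (fun x => (x, sigFun l x)) ?_ fun a _ b _ h => congrArg Prod.fst h
      intro x hx
      simp only [mem_coe, mem_filter] at hx
      refine mem_filter.2 ⟨mem_filter.2 ⟨mem_filter.2 ⟨mem_univ _, Ne.symm (mem_valid.1 hx.2.1).2,
        l, hl, pt_mem_of_valid hx.2.1⟩, hx.1, hx.2.2⟩, hx.2.1, rfl⟩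
    refine (sum_le_sum e).trans (le_of_eq ?_)
    rw [sum_comm]
    exact sum_congr rfl fun z _ => by rw [pmult, card_filter]
  exact (Nat.pow_le_pow_left hsum 2).trans
    ((pair_sq_le S h3 hS P).trans (Nat.mul_le_mul_right _ hP))

/-- Few points lie on a positive fraction of the lines. -/
lemma card_rich_le (S : Finset (PLine p)) (hS : #S ≤ 2 * p) (D : ℕ) (hD : 50 * D ^ 2 < p) :
    #(univ.filter fun Q => p ≤ 2 * D * mult S linePts Q) ≤ 5 * D := by
  by_contra hlt
  obtain ⟨O, hO, hcard⟩ := exists_subset_card_eq (n := 5 * D + 1) (by omega)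
    (s := univ.filter fun Q => p ≤ 2 * D * mult S linePts Q)
  have h1 : (5 * D + 1) * p ≤ 2 * D * ∑ Q ∈ O, mult S linePts Q := by
    rw [mul_sum, ← hcard, ← smul_eq_mul]
    exact card_nsmul_le_sum _ _ _ fun Q hQ => (mem_filter.1 (hO hQ)).2
  have h2 : ∑ Q ∈ O, mult S linePts Q ≤ #S + #O * #O := by
    calc ∑ Q ∈ O, mult S linePts Q = ∑ l ∈ S, #(O.filter fun Q => Q ∈ linePts l) := by
          simp only [mult, card_filter]
          rw [sum_comm]
      _ ≤ ∑ l ∈ S, (1 + #((O ×ˢ O).filter fun z => z.1 ≠ z.2 ∧ z.1 ∈ linePts l ∧ z.2 ∈ linePts l)) := by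
          refine sum_le_sum fun l _ => ?_
          rcases (O.filter fun Q => Q ∈ linePts l).eq_empty_or_nonempty with e | ⟨Q₀, hQ₀⟩
          · simp [e]
          rw [← card_erase_add_one hQ₀, add_comm]
          refine Nat.add_le_add_left (card_le_card_of_injOn (fun Q => (Q₀, Q)) ?_ ?_) 1
          · intro Q hQ
            simp only [mem_coe, mem_erase, mem_filter] at hQ
            obtain ⟨hQ0O, hQ0l⟩ := mem_filter.1 hQ₀
            exact mem_filter.2 ⟨mem_product.2 ⟨hQ0O, hQ.2.1⟩, Ne.symm hQ.1, hQ0l, hQ.2.2⟩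
          · intro a _ b _ h; exact congrArg Prod.snd h
      _ ≤ #S + #O * #O := by
          rw [sum_add_distrib, ← card_eq_sum_ones, ← card_product]
          refine Nat.add_le_add_left ?_ _
          simp only [card_filter]
          rw [sum_comm, card_eq_sum_ones]
          refine sum_le_sum fun z _ => ?_
          rw [← card_filter]
          refine card_le_one.2 fun a ha b hb => ?_
          simp only [mem_filter] at ha hb
          by_contra hab
          exact ha.2.1 (card_le_one.1 (linePts_meet_le a b hab) _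
            (mem_inter.2 ⟨ha.2.2.1, hb.2.2.1⟩) _ (mem_inter.2 ⟨ha.2.2.2, hb.2.2.2⟩))
  rw [hcard] at h2
  have h3 : (5 * D + 1) * p ≤ 2 * D * (2 * p + (5 * D + 1) * (5 * D + 1)) :=
    h1.trans (Nat.mul_le_mul_left _ (h2.trans (by omega)))
  nlinarith [Nat.mul_le_mul_left (D + 1) hD.le]

/-- The error of a line with respect to the rectangle, on both sides. -/
noncomputable def lerr (X Y : Finset (ZMod p)) (l : PLine p) : ℕ :=
  #(X.filter fun x => sigFun l x ∉ Y) + #(Y.filter fun y => sigFun l y ∉ X)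

lemma card_sub_le (X Y : Finset (ZMod p)) {l : PLine p} (hD : disc l ≠ 0) :
    #X ≤ #Y + #(X.filter fun x => sigFun l x ∉ Y) := by
  rw [← card_filter_add_card_filter_not (s := X) (fun x => sigFun l x ∈ Y)]
  refine Nat.add_le_add_right (card_le_card_of_injOn (sigFun l) (fun x hx => ?_) ?_) _
  · exact (mem_filter.1 hx).2
  · exact (sigFun_involutive hD).injective.injOn

/-- The parameter change sending `z` to the point at infinity. -/
noncomputable def psi (z : ZMod p) : Equiv.Perm (ZMod p) :=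
  (Equiv.subRight z).trans (Equiv.inv (ZMod p))

lemma psi_apply (z x : ZMod p) : psi z x = (x - z)⁻¹ := rfl

/-- The product of two lines through the same pair `z`, `t` is a dilation after the change. -/
lemma dil_err_le (X Y : Finset (ZMod p)) {l l₀ : PLine p} (hl : disc l ≠ 0) (hl₀ : disc l₀ ≠ 0)
    {z t : ZMod p} (hzt : t ≠ z) (h : cA l * (z * t) + cB l * (z + t) + cC l = 0)
    (h₀ : cA l₀ * (z * t) + cB l₀ * (z + t) + cC l₀ = 0) {c : ZMod p}
    (hc : c = (disc l₀ / (cA l₀ * z ^ 2 + 2 * cB l₀ * z + cC l₀) ^ 2)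
      / (disc l / (cA l * z ^ 2 + 2 * cB l * z + cC l) ^ 2)) :
    err (X.map (psi z).toEmbedding) (dil (t - z)⁻¹ c) ≤ lerr X Y l + lerr X Y l₀ + 5 := by
  have hA : cA l * z ^ 2 + 2 * cB l * z + cC l ≠ 0 := by
    intro h0
    exact mul_ne_zero (sub_ne_zero.2 hzt) (den_ne hl h) (by linear_combination h - h0)
  have hA₀ : cA l₀ * z ^ 2 + 2 * cB l₀ * z + cC l₀ ≠ 0 := by
    intro h0
    exact mul_ne_zero (sub_ne_zero.2 hzt) (den_ne hl₀ h₀) (by linear_combination h₀ - h0)
  have hc0 : c ≠ 0 := by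
    rw [hc]
    exact div_ne_zero (div_ne_zero hl₀ (pow_ne_zero _ hA₀)) (div_ne_zero hl (pow_ne_zero _ hA))
  let E : Finset (ZMod p) := ({z, sigFun l z, sigFun l t} : Finset (ZMod p)) ∪
    ((univ.filter fun x => cA l * x + cB l = 0) ∪
      (univ.filter fun y => cA l₀ * y + cB l₀ = 0).image (sigFun l))
  have hE : #E ≤ 5 := by
    refine (card_union_le _ _).trans ?_
    have := card_le_three (a := z) (b := sigFun l z) (c := sigFun l t)
    have := (card_union_le (univ.filter fun x => cA l * x + cB l = 0)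
      ((univ.filter fun y => cA l₀ * y + cB l₀ = 0).image (sigFun l)))
    have := card_poles_le hl
    have := (card_image_le (s := univ.filter fun y => cA l₀ * y + cB l₀ = 0) (f := sigFun l)).trans
      (card_poles_le hl₀)
    omega
  have hsub : (X.map (psi z).toEmbedding).filter (fun u => dil (t - z)⁻¹ c u ∉ X.map (psi z).toEmbedding)
      ⊆ ((X.filter fun x => sigFun l x ∉ Y) ∪ ((Y.filter fun y => sigFun l₀ y ∉ X).image (sigFun l) ∪ E)).map
        (psi z).toEmbedding := by
    intro u hu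
    obtain ⟨huG, hbad⟩ := mem_filter.1 hu
    obtain ⟨x, hx, rfl⟩ := mem_map.1 huG
    refine mem_map.2 ⟨x, ?_, rfl⟩
    by_contra hout
    simp only [mem_union, not_or] at hout
    obtain ⟨g1, g2, g3⟩ := hout
    have hy : sigFun l x ∈ Y := by
      by_contra h'; exact g1 (mem_filter.2 ⟨hx, h'⟩)
    set y := sigFun l x with hydef
    have hyx : sigFun l y = x := sigFun_involutive hl x
    have hw : sigFun l₀ y ∈ X := by
      by_contra h'
      exact g2 (mem_image.2 ⟨y, mem_filter.2 ⟨hy, h'⟩, hyx⟩)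
    simp only [E, mem_union, mem_insert, mem_singleton, mem_filter, mem_univ, true_and, not_or,
      mem_image, not_exists, not_and] at g3
    obtain ⟨⟨hxz, hxz', hxt⟩, hpole, hpole₀⟩ := g3
    have hyz : y ≠ z := fun e => hxz' (by rw [← e, hyx])
    have hyt : y ≠ t := fun e => hxt (by rw [← e, hyx])
    have hyp : cA l₀ * y + cB l₀ ≠ 0 := fun e => hpole₀ y e hyx
    have hwz : sigFun l₀ y ≠ z := by
      intro e
      refine hyt ?_
      rw [← sigFun_unique hl₀ h₀, ← e, sigFun_involutive hl₀ y]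
    obtain ⟨-, e1⟩ := conj_formula hl (sigFun_eq hpole) h hxz hyz hzt
    obtain ⟨-, e2⟩ := conj_formula hl₀ (sigFun_eq hyp) h₀ hyz hwz hzt
    rw [← hydef] at e1
    refine hbad ?_
    simp only [Equiv.coe_toEmbedding, psi_apply]
    have hyv : (y - z)⁻¹ - (t - z)⁻¹ ≠ 0 := fun e =>
      hyt (sub_left_injective (inv_injective (sub_eq_zero.1 e)))
    have hxv : (x - z)⁻¹ - (t - z)⁻¹ ≠ 0 := by
      intro e
      rw [e, zero_mul] at e1
      exact (div_ne_zero hl (pow_ne_zero _ hA)) e1.symm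
    have hval : dil (t - z)⁻¹ c (x - z)⁻¹ = (sigFun l₀ y - z)⁻¹ := by
      have gen : ∀ a b d v : ZMod p, a ≠ 0 → b ≠ 0 → b * (d - v) / (a * b) * a + v = d := by
        intro a b d v ha hb
        rw [mul_comm a b, mul_div_mul_left _ _ hb, div_mul_cancel₀ _ ha, sub_add_cancel]
      rw [dil_apply hc0, hc, ← e1, ← e2]
      exact gen _ _ _ _ hxv hyv
    rw [hval]
    exact mem_map.2 ⟨_, hw, rfl⟩
  have := card_le_card hsub
  rw [card_map] at this
  have := card_union_le (X.filter fun x => sigFun l x ∉ Y)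
    ((Y.filter fun y => sigFun l₀ y ∉ X).image (sigFun l) ∪ E)
  have := card_union_le ((Y.filter fun y => sigFun l₀ y ∉ X).image (sigFun l)) E
  have := card_image_le (s := Y.filter fun y => sigFun l₀ y ∉ X) (f := sigFun l)
  simp only [err, lerr] at *
  omega

/-- The heart: a rectangle with small escapes misses few parameters. -/
lemma piece_small (S : Finset (PLine p)) (hD : ∀ l ∈ S, disc l ≠ 0) (hS : #S ≤ 2 * p)
    (hS' : p ≤ #S + 4) (X Y : Finset (ZMod p)) (r Dn L : ℕ) (hX : p ≤ Dn * #X)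
    (hY : ∀ y ∉ Y, #(X.filter fun x => (x, y) ∈ covered S) ≤ r)
    (hgood : 8 * Dn * #(S.filter fun l => L < lerr X Y l) ≤ p)
    (hbig : 100 * Dn ^ 2 + 4 * Dn * (4 + r) + 20 < p) :
    #Yᶜ ≤ 58 * Dn ∨ #Xᶜ ≤ 384 * Dn ^ 2 * (2 * L + 5) := by
  rw [or_iff_not_imp_left]
  intro hbigY
  have hD0 : 1 ≤ Dn := by
    rcases Nat.eq_zero_or_pos Dn with h | h
    · subst h; simp at hX; omega
    · exact h
  let Z₁ := univ.filter fun z => p < 8 * Dn * #(S.filter fun l => z ∉ valid l)
  have hZ₁ : #Z₁ ≤ 48 * Dn := by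
    refine Nat.le_of_mul_le_mul_right (c := p) ?_ hp.out.pos
    calc #Z₁ * p ≤ ∑ z ∈ Z₁, 8 * Dn * #(S.filter fun l => z ∉ valid l) := by
          rw [← smul_eq_mul]
          exact card_nsmul_le_sum _ _ _ fun z hz => (mem_filter.1 hz).2.le
      _ ≤ 8 * Dn * ∑ z, #(S.filter fun l => z ∉ valid l) := by
          rw [← mul_sum]
          exact Nat.mul_le_mul_left _ (sum_le_sum_of_subset (subset_univ _))
      _ = 8 * Dn * ∑ l ∈ S, #(valid l)ᶜ := by
          congr 1
          simp only [card_filter]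
          rw [sum_comm]
          refine sum_congr rfl fun l _ => ?_
          rw [← card_filter]
          congr 1
          ext z; simp
      _ ≤ 8 * Dn * (#S * 3) := by
          refine Nat.mul_le_mul_left _ ?_
          rw [← smul_eq_mul]
          exact sum_le_card_nsmul _ _ _ fun l hl => card_valid_compl (hD l hl) (by omega)
      _ ≤ 48 * Dn * p := by nlinarith
  let O := univ.filter fun Q => p ≤ 2 * Dn * mult S linePts Q
  let Z₂ := O.biUnion fun Q => univ.filter fun x => (1 : ZMod p) * x ^ 2 + -(2 * Q.1) * x + Q.2 = 0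
  have hZ₂ : #Z₂ ≤ 10 * Dn := by
    refine (card_biUnion_le_card_mul _ _ 2 fun Q _ => card_roots_two (Or.inl one_ne_zero)).trans ?_
    have : #O ≤ 5 * Dn := card_rich_le S hS Dn (by omega)
    omega
  obtain ⟨z, hz, hzbad⟩ : ∃ z ∈ Yᶜ, z ∉ Z₁ ∪ Z₂ := by
    by_contra hc
    push Not at hc
    exact hbigY ((card_le_card hc).trans ((card_union_le _ _).trans (by omega)))
  rw [mem_compl] at hz
  simp only [mem_union, not_or] at hzbad
  obtain ⟨hz1, hz2⟩ := hzbad
  let Sz := S.filter fun l => lerr X Y l ≤ L ∧ z ∈ valid l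
  let T := Sz.image fun l => sigFun l z
  have hSz : 8 * Dn * #S ≤ 8 * Dn * #Sz + 2 * p := by
    have hsub : S ⊆ Sz ∪ ((S.filter fun l => L < lerr X Y l) ∪ S.filter fun l => z ∉ valid l) := by
      intro l hl
      simp only [Sz, mem_union, mem_filter, hl, true_and]
      by_cases h : z ∈ valid l <;> simp [h, le_or_gt]
    have h1 := (card_le_card hsub).trans ((card_union_le _ _).trans
      (Nat.add_le_add_left (card_union_le _ _) _))
    have h2 : 8 * Dn * #(S.filter fun l => z ∉ valid l) ≤ p := by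
      by_contra h'; exact hz1 (mem_filter.2 ⟨mem_univ _, by omega⟩)
    have := Nat.mul_le_mul_left (8 * Dn) h1
    rw [mul_add, mul_add] at this
    omega
  have hT : #T ≤ r + #Xᶜ := by
    have hsub : T ⊆ (X.filter fun x => (x, z) ∈ covered S) ∪ Xᶜ := by
      intro t ht
      obtain ⟨l, hl, rfl⟩ := mem_image.1 ht
      obtain ⟨hlS, -, hzl⟩ := mem_filter.1 hl
      by_cases hx : sigFun l z ∈ X
      · refine mem_union_left _ (mem_filter.2 ⟨hx, mem_filter.2 ⟨mem_univ _, (mem_valid.1 hzl).2,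
          l, hlS, ?_⟩⟩)
        rw [pt_comm]; exact pt_mem_of_valid hzl
      · exact mem_union_right _ (mem_compl.2 hx)
    exact (card_le_card hsub).trans ((card_union_le _ _).trans (Nat.add_le_add_right (hY z hz) _))
  have hXc : #Xᶜ + #X = p := by rw [card_compl, ZMod.card]; have := (card_le_univ X).trans_eq (ZMod.card p); omega
  have he : p ≤ 2 * Dn * (#Sz - #T) := by
    have k1 : Dn * #Xᶜ + p ≤ Dn * p := by
      calc Dn * #Xᶜ + p ≤ Dn * #Xᶜ + Dn * #X := Nat.add_le_add_left hX _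
        _ = Dn * p := by rw [← mul_add, hXc]
    have k2 : 8 * Dn * p ≤ 8 * Dn * #S + 32 * Dn := by
      have := Nat.mul_le_mul_left (8 * Dn) hS'
      rw [mul_add] at this
      omega
    have k3 : 8 * Dn * #T ≤ 8 * Dn * r + 8 * (Dn * #Xᶜ) := by
      have := Nat.mul_le_mul_left (8 * Dn) hT
      rw [mul_add] at this
      refine this.trans (le_of_eq ?_)
      ring
    have k4 : 4 * (p + 2 * Dn * #T) ≤ 4 * (2 * Dn * #Sz) := by nlinarith
    have k5 : p + 2 * Dn * #T ≤ 2 * Dn * #Sz := Nat.le_of_mul_le_mul_left k4 (by norm_num)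
    rw [Nat.mul_sub]
    omega
  -- a base line for each target
  have hex : ∀ t : ZMod p, t ∈ T → ∃ l ∈ Sz, sigFun l z = t := fun t ht => mem_image.1 ht
  choose base hbase hbase' using hex
  let bl : PLine p → PLine p := fun l =>
    if h : sigFun l z ∈ T then base _ h else l
  have hbl : ∀ l ∈ Sz, bl l ∈ Sz ∧ sigFun (bl l) z = sigFun l z := by
    intro l hl
    have hm : sigFun l z ∈ T := mem_image_of_mem _ hl
    simp only [bl, dif_pos hm]
    exact ⟨hbase _ hm, hbase' _ hm⟩
  let K := Sz.filter fun l => bl l ≠ l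
  have hK : #Sz - #T ≤ #K := by
    have h := card_filter_add_card_filter_not (s := Sz) (fun l => bl l ≠ l)
    have h' : #(Sz.filter fun l => ¬ bl l ≠ l) ≤ #T := by
      refine card_le_card_of_injOn (fun l => sigFun l z)
        (fun l hl => mem_coe.2 (mem_image_of_mem _ (mem_filter.1 hl).1)) ?_
      intro a ha b hb hab
      simp only [coe_filter, not_not, Set.mem_ofPred_eq] at ha hb
      have hma : sigFun a z ∈ T := mem_image_of_mem _ ha.1
      have hmb : sigFun b z ∈ T := mem_image_of_mem _ hb.1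
      rw [← ha.2, ← hb.2]
      simp only [bl, dif_pos hma, dif_pos hmb]
      congr 1
    simp only [K]
    omega
  let mult' : PLine p → ZMod p := fun l => disc l / (cA l * z ^ 2 + 2 * cB l * z + cC l) ^ 2
  let hmap : PLine p → ZMod p × ZMod p := fun l =>
    ((sigFun l z - z)⁻¹, mult' (bl l) / mult' l)
  have hSzS : ∀ l ∈ Sz, l ∈ S ∧ lerr X Y l ≤ L ∧ z ∈ valid l := fun l hl => by
    simpa [Sz] using hl
  have heq : ∀ l ∈ Sz, cA l * (z * sigFun l z) + cB l * (z + sigFun l z) + cC l = 0 := fun l hl =>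
    sigFun_eq (mem_valid.1 (hSzS l hl).2.2).1
  have hA₀ : ∀ l ∈ Sz, cA l * z ^ 2 + 2 * cB l * z + cC l ≠ 0 := by
    intro l hl h0
    obtain ⟨h1, h2⟩ := mem_valid.1 (hSzS l hl).2.2
    exact mul_ne_zero (sub_ne_zero.2 h2) h1 (by linear_combination heq l hl - h0)
  have hm0 : ∀ l ∈ Sz, mult' l ≠ 0 := fun l hl =>
    div_ne_zero (hD l (hSzS l hl).1) (pow_ne_zero _ (hA₀ l hl))
  have hsame : ∀ l ∈ Sz, ∀ l' ∈ Sz, sigFun l z = sigFun l' z → mult' l = mult' l' → l = l' := by
    intro l hl l' hl' ht hm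
    by_contra hne
    obtain ⟨hlS, -, hzl⟩ := hSzS l hl
    obtain ⟨hlS', -, hzl'⟩ := hSzS l' hl'
    let E := ({z, sigFun l z, sigFun l' z} : Finset (ZMod p))
    have hsub : ((valid l ∩ valid l') \ E) ⊆
        (valid l ∩ valid l').filter fun x => sigFun l x = sigFun l' x := by
      intro x hx
      obtain ⟨hxv, hxE⟩ := mem_sdiff.1 hx
      refine mem_filter.2 ⟨hxv, ?_⟩
      obtain ⟨hx1, hx2⟩ := mem_inter.1 hxv
      simp only [E, mem_insert, mem_singleton, not_or] at hxE
      have hy : sigFun l x ≠ z := fun e => hxE.2.1 (by rw [← e, sigFun_involutive (hD l hlS) x])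
      have hy' : sigFun l' x ≠ z := fun e => hxE.2.2 (by rw [← e, sigFun_involutive (hD l' hlS') x])
      have htz : sigFun l z ≠ z := (mem_valid.1 hzl).2
      obtain ⟨-, e1⟩ := conj_formula (hD l hlS) (sigFun_eq (mem_valid.1 hx1).1) (heq l hl) hxE.1 hy htz
      obtain ⟨-, e2⟩ := conj_formula (hD l' hlS') (sigFun_eq (mem_valid.1 hx2).1)
        (ht ▸ heq l' hl' : cA l' * (z * sigFun l z) + cB l' * (z + sigFun l z) + cC l' = 0)
        hxE.1 hy' htz
      have hne0 : (x - z)⁻¹ - (sigFun l z - z)⁻¹ ≠ 0 := by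
        intro e
        rw [e, zero_mul] at e1
        exact hm0 l hl e1.symm
      have h := mul_left_cancel₀ hne0 (e1.trans (hm.trans e2.symm))
      exact sub_left_injective (inv_injective (sub_left_injective h))
    have h1 := (card_le_card hsub).trans (card_agree_le hne (by omega))
    have h2 := card_le_card_sdiff_add_card (s := valid l ∩ valid l') (t := E)
    have h3 : #E ≤ 3 := card_le_three
    have h4 : p ≤ #(valid l ∩ valid l') + 6 := by
      have a1 := card_valid_compl (hD l hlS) (by omega)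
      have a2 := card_valid_compl (hD l' hlS') (by omega)
      have a3 := card_union_add_card_inter (valid l) (valid l')
      have a4 := card_le_univ (valid l ∪ valid l')
      rw [card_compl, ZMod.card] at a1 a2
      rw [ZMod.card] at a4
      omega
    omega
  have hinj : Set.InjOn hmap (K : Set (PLine p)) := by
    intro a ha b hb hab
    have ha' := (mem_filter.1 (mem_coe.1 ha)).1
    have hb' := (mem_filter.1 (mem_coe.1 hb)).1
    simp only [hmap, Prod.mk.injEq] at hab
    have ht : sigFun a z = sigFun b z := sub_left_injective (inv_injective hab.1)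
    refine hsame a ha' b hb' ht ?_
    have hblab : bl a = bl b := by
      have hma : sigFun a z ∈ T := mem_image_of_mem _ ha'
      have hmb : sigFun b z ∈ T := mem_image_of_mem _ hb'
      rw [show bl a = base _ hma from dif_pos hma, show bl b = base _ hmb from dif_pos hmb]
      congr 1
    have h := hab.2
    rw [hblab, div_eq_div_iff (hm0 a ha') (hm0 b hb')] at h
    exact (mul_left_cancel₀ (hm0 _ (hbl b hb').1) h).symm
  set G := X.map (psi z).toEmbedding with hG
  have hH : ∀ h ∈ K.image hmap, h.2 ≠ 0 ∧ h.2 ≠ 1 ∧ err G (dil h.1 h.2) ≤ 2 * L + 5 := by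
    intro h hh
    obtain ⟨l, hl, rfl⟩ := mem_image.1 hh
    obtain ⟨hlz, hlne⟩ := mem_filter.1 hl
    obtain ⟨hbz, hbt⟩ := hbl l hlz
    refine ⟨div_ne_zero (hm0 _ hbz) (hm0 _ hlz), fun e => hlne ?_, ?_⟩
    · exact hsame _ hbz _ hlz hbt ((div_eq_one_iff_eq (hm0 _ hlz)).1 e)
    · obtain ⟨h1, h2, h3⟩ := hSzS l hlz
      obtain ⟨g1, g2, -⟩ := hSzS _ hbz
      refine (dil_err_le X Y (hD l h1) (hD _ g1) (mem_valid.1 h3).2 (heq l hlz) (hbt ▸ heq _ hbz) rfl).trans ?_
      omega
  have htwo : ∃ h₁ ∈ K.image hmap, ∃ h₂ ∈ K.image hmap, h₁.1 ≠ h₂.1 := by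
    by_contra hc
    push Not at hc
    obtain ⟨l₁, hl₁⟩ : K.Nonempty := card_pos.1 (by
      rcases Nat.eq_zero_or_pos #K with h | h
      · exfalso; have := Nat.mul_le_mul_left (2 * Dn) hK; rw [h, mul_zero] at this; omega
      · exact h)
    have hl₁' := (mem_filter.1 hl₁).1
    refine hz2 (mem_biUnion.2 ⟨pt z (sigFun l₁ z), mem_filter.2 ⟨mem_univ _, ?_⟩, ?_⟩)
    · refine he.trans (Nat.mul_le_mul_left _ (hK.trans (card_le_card fun l hl => ?_)))
      obtain ⟨hlz, -⟩ := mem_filter.1 hl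
      have := hc _ (mem_image_of_mem hmap hl) _ (mem_image_of_mem hmap hl₁)
      have ht : sigFun l z = sigFun l₁ z := sub_left_injective (inv_injective this)
      exact mem_filter.2 ⟨(hSzS l hlz).1, ht ▸ pt_mem_of_valid (hSzS l hlz).2.2⟩
    · refine mem_filter.2 ⟨mem_univ _, ?_⟩
      simp only [pt]
      have h2 := two_ne (p := p) (by omega)
      field_simp
      ring
  have hcard : p ≤ 2 * Dn * #(K.image hmap) := by
    rw [card_image_of_injOn hinj]
    exact he.trans (Nat.mul_le_mul_left _ hK)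
  have hmain := trivial_of_dilations G (K.image hmap) (2 * L + 5) (2 * Dn) hH htwo hcard (by nlinarith)
  rw [hG, card_map, show p - #X = #Xᶜ by omega] at hmain
  refine Nat.le_of_mul_le_mul_right (c := p) ?_ hp.out.pos
  calc #Xᶜ * p ≤ #Xᶜ * (Dn * #X) := Nat.mul_le_mul_left _ hX
    _ = Dn * (#X * #Xᶜ) := by ring
    _ ≤ Dn * (p * (4 * (2 * Dn) * (48 * (2 * L + 5)))) := Nat.mul_le_mul_left _ hmain
    _ = 384 * Dn ^ 2 * (2 * L + 5) * p := by ring

/-- Lines other than tangents contain at most `(p + 3) / 2` interior points. -/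
lemma card_interior_line (h3 : 3 ≤ p) {l : PLine p} (hD : disc l ≠ 0) :
    2 * #((linePts l).filter fun Q => ¬ IsSquare (Q.1 ^ 2 - Q.2)) ≤ p + 3 := by
  have h1 := card_filter_add_card_filter_not (s := linePts l) (fun Q => ¬ IsSquare (Q.1 ^ 2 - Q.2))
  rw [card_linePts] at h1
  have h2 : #(valid l) ≤ #((linePts l).filter fun Q => ¬ ¬ IsSquare (Q.1 ^ 2 - Q.2)) * 2 := by
    refine (card_le_mul_card_image (f := fun x => pt x (sigFun l x)) (valid l) 2 fun Q _ => ?_).trans ?_
    · refine (card_le_card ?_).trans (card_roots_two (a := (1 : ZMod p)) (b := -(2 * Q.1)) (c := Q.2)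
        (Or.inl one_ne_zero))
      intro x hx
      simp only [mem_filter, mem_univ, true_and] at hx ⊢
      rw [← hx.2]
      have h2 := two_ne (p := p) h3
      simp only [pt]
      field_simp
      ring
    · rw [mul_comm]
      refine Nat.mul_le_mul_right _ (card_le_card ?_)
      intro Q hQ
      obtain ⟨x, hx, rfl⟩ := mem_image.1 hQ
      refine mem_filter.2 ⟨pt_mem_of_valid hx, not_not.2 ⟨(x - sigFun l x) / 2, ?_⟩⟩
      have h2 := two_ne (p := p) h3
      simp only [pt]
      field_simp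
      ring
  have h3' := card_valid_compl hD h3
  rw [card_compl, ZMod.card] at h3'
  omega

lemma tangent_no_interior {l : PLine p} (h3 : 3 ≤ p) (hD : disc l = 0) {Q : ZMod p × ZMod p}
    (hQ : Q ∈ linePts l) : IsSquare (Q.1 ^ 2 - Q.2) := by
  have h2 := two_ne (p := p) h3
  obtain ⟨(_ | a), b⟩ := l
  · exfalso
    simp [disc, cA, cB, h2] at hD
  · rw [mem_linePts_some] at hQ
    refine ⟨Q.1 - a / 2, ?_⟩
    simp only [disc, cA, cB, cC] at hD
    rw [hQ]
    field_simp at hD ⊢
    linear_combination -hD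

/-- At most `(p + 1) / 2` squares. -/
lemma card_squares_le (h3 : 3 ≤ p) : 2 * #(univ.filter fun z : ZMod p => IsSquare z) ≤ p + 1 := by
  set Sq := univ.filter fun z : ZMod p => IsSquare z with hSq
  have hfib : 2 * #(Sq.erase 0) ≤ #((univ : Finset (ZMod p)).erase 0) := by
    refine mul_card_image_le_card_of_maps_to (f := fun z : ZMod p => z * z) ?_ 2 ?_
    · intro z hz
      exact mem_erase.2 ⟨mul_self_ne_zero.2 (mem_erase.1 hz).1, mem_filter.2 ⟨mem_univ _, z, rfl⟩⟩
    · intro w hw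
      obtain ⟨hw0, s, rfl⟩ : w ≠ 0 ∧ IsSquare w := by simpa [hSq] using hw
      have hs : s ≠ 0 := fun e => hw0 (by simp [e])
      refine le_trans (le_of_eq (card_pair (fun e : s = -s => hs ?_)).symm)
        (card_le_card (s := {s, -s}) ?_)
      · exact (mul_eq_zero.1 (show (2 : ZMod p) * s = 0 by linear_combination e)).resolve_left
          (two_ne h3)
      · intro u hu
        simp only [mem_insert, mem_singleton] at hu
        rcases hu with rfl | rfl <;> simp [hs]
  rw [card_erase_of_mem (mem_univ _), card_univ, ZMod.card] at hfib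
  have := pred_card_le_card_erase (a := (0 : ZMod p)) (s := Sq)
  omega

/-- A cover of the interior by lines other than tangents has at least `p - 4` lines. -/
lemma card_lines_ge (h5 : 5 ≤ p) (S : Finset (PLine p)) (hD : ∀ l ∈ S, disc l ≠ 0)
    (hcov : ∀ x y : ZMod p, ¬ IsSquare (x ^ 2 - y) → ∃ l ∈ S, (x, y) ∈ linePts l) :
    p ≤ #S + 4 := by
  let I := univ.filter fun Q : ZMod p × ZMod p => ¬ IsSquare (Q.1 ^ 2 - Q.2)
  have hsq : 2 * #(univ.filter fun z : ZMod p => IsSquare z) ≤ p + 1 := card_squares_le (by omega)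
  have hI : p * (p - 1) ≤ 2 * #I := by
    have h0 : #I = ∑ x : ZMod p, #(univ.filter fun y => ¬ IsSquare (x ^ 2 - y)) := by
      simp only [I, card_filter, Fintype.sum_prod_type]
    have h1 : ∀ x : ZMod p, #(univ.filter fun y => ¬ IsSquare (x ^ 2 - y))
        = #(univ.filter fun z : ZMod p => ¬ IsSquare z) := fun x => by
      refine card_nbij' (fun y => x ^ 2 - y) (fun z => x ^ 2 - z) ?_ ?_ ?_ ?_ <;> intro y hy <;>
        simp_all
    rw [h0, sum_congr rfl fun x _ => h1 x, sum_const, card_univ, ZMod.card, smul_eq_mul]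
    have h' : #(univ.filter fun z : ZMod p => IsSquare z)
        + #(univ.filter fun z : ZMod p => ¬ IsSquare z) = p :=
      (card_filter_add_card_filter_not _).trans (by rw [card_univ, ZMod.card])
    rw [← mul_assoc, mul_comm 2 p, mul_assoc]
    exact Nat.mul_le_mul_left _ (by omega)
  have hsub : I ⊆ S.biUnion fun l => (linePts l).filter fun Q => ¬ IsSquare (Q.1 ^ 2 - Q.2) := by
    intro Q hQ
    obtain ⟨l, hl, hm⟩ := hcov Q.1 Q.2 (mem_filter.1 hQ).2
    exact mem_biUnion.2 ⟨l, hl, mem_filter.2 ⟨hm, (mem_filter.1 hQ).2⟩⟩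
  have hbound : 2 * #I ≤ #S * (p + 3) := by
    refine (Nat.mul_le_mul_left 2 ((card_le_card hsub).trans card_biUnion_le)).trans ?_
    rw [mul_sum, ← smul_eq_mul]
    exact sum_le_card_nsmul _ _ _ fun l hl => card_interior_line (by omega) (hD l hl)
  have h := hI.trans hbound
  by_contra hlt
  have h1 : p * (p - 1) + p = p * p := by
    obtain ⟨q, rfl⟩ : ∃ q, p = q + 1 := ⟨p - 1, by omega⟩
    rw [Nat.add_sub_cancel]
    ring
  have h2 := Nat.mul_le_mul_right (p + 3) (show #S + 5 ≤ p by omega)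
  nlinarith

/-- Outside a fully covered rectangle only `O(p)` points remain. -/
lemma uncovered_le (h3 : 3 ≤ p) (S S₀ : Finset (PLine p)) (hsub : S₀ ⊆ S) (X Y : Finset (ZMod p))
    (hcov : ∀ x y : ZMod p, ¬ IsSquare (x ^ 2 - y) → ∃ l ∈ S₀, (x, y) ∈ linePts l)
    (hrect : ∀ x ∈ X, ∀ y ∈ Y, x ≠ y → ∃ l ∈ S₀, pt x y ∈ linePts l) :
    #(univ.filter fun Q => mult S linePts Q = 0) ≤ (#Xᶜ + #Yᶜ + 1) * p := by
  have h : (univ.filter fun Q => mult S linePts Q = 0) ⊆
      ((Xᶜ ×ˢ univ) ∪ (univ ×ˢ Yᶜ) ∪ univ.image fun x : ZMod p => (x, x)).image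
        fun z => pt z.1 z.2 := by
    rintro ⟨a, b⟩ hQ
    have hun : ∀ l ∈ S₀, (a, b) ∉ linePts l := fun l hl hm =>
      (card_ne_zero.2 ⟨l, mem_filter.2 ⟨hsub hl, hm⟩⟩) (mem_filter.1 hQ).2
    by_cases hsq : IsSquare (a ^ 2 - b)
    · obtain ⟨s, hs⟩ := hsq
      have hpt : pt (a + s) (a - s) = (a, b) := by
        have h2 := two_ne (p := p) h3
        simp only [pt, Prod.mk.injEq]
        exact ⟨by field_simp; ring, by linear_combination hs⟩
      refine mem_image.2 ⟨(a + s, a - s), ?_, hpt⟩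
      by_cases hne : a + s = a - s
      · exact mem_union_right _ (mem_image.2 ⟨a + s, mem_univ _, Prod.ext rfl hne⟩)
      refine mem_union_left _ ?_
      by_cases hx : a + s ∈ X
      · by_cases hy : a - s ∈ Y
        · obtain ⟨l, hl, hm⟩ := hrect _ hx _ hy hne
          exact absurd (hpt ▸ hm) (hun l hl)
        · exact mem_union_right _ (mem_product.2 ⟨mem_univ _, mem_compl.2 hy⟩)
      · exact mem_union_left _ (mem_product.2 ⟨mem_compl.2 hx, mem_univ _⟩)
    · obtain ⟨l, hl, hm⟩ := hcov a b hsq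
      exact absurd hm (hun l hl)
  refine (card_le_card h).trans (card_image_le.trans ((card_union_le _ _).trans ?_))
  refine (Nat.add_le_add (card_union_le _ _) card_image_le).trans ?_
  simp only [card_product, card_univ, ZMod.card]
  exact le_of_eq (by ring)

/-- Covers of the interior by about `p` lines miss only `O(p)` points of the plane. -/
theorem few_uncovered (C : ℕ) : ∃ W p₀ : ℕ, ∀ p, ∀ _ : Fact p.Prime, p₀ ≤ p →
    ∀ S : Finset (PLine p), #S ≤ p + C →
      (∀ x y : ZMod p, ¬ IsSquare (x ^ 2 - y) → ∃ l ∈ S, (x, y) ∈ linePts l) →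
      #(univ.filter fun Q => mult S linePts Q = 0) ≤ (W + 1) * p := by
  set r := C + 2 with hr
  set Dn := 2 * 40 ^ r with hDn
  set γ := 200000 * Dn ^ 3 with hγ
  refine ⟨γ * (20 * r * γ + 1), 200 * Dn ^ 2 * r ^ 2 + 8 * Dn * (4 + r) + C + 100, ?_⟩
  intro p _ hp₀ S hS hcov
  have hD1 : 1 ≤ Dn := by rw [hDn]; have : 0 < 40 ^ r := by positivity
                          omega
  have hr2 : 1 ≤ r ^ 2 := Nat.one_le_pow _ _ (by omega)
  have hDD : Dn ≤ Dn ^ 2 := Nat.le_self_pow (by norm_num) _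
  have hb1 : Dn * r ^ 2 ≤ Dn ^ 2 * r ^ 2 := Nat.mul_le_mul_right _ hDD
  have hb2 : Dn ^ 2 ≤ Dn ^ 2 * r ^ 2 := Nat.le_mul_of_pos_right _ (by omega)
  have hb3 : 200 * Dn ^ 2 * r ^ 2 = 200 * (Dn ^ 2 * r ^ 2) := mul_assoc _ _ _
  have hb4 : 8 * Dn * (4 + r) = 2 * (4 * Dn * (4 + r)) := by ring
  let S₀ := S.filter fun l => disc l ≠ 0
  have hD : ∀ l ∈ S₀, disc l ≠ 0 := fun l hl => (mem_filter.1 hl).2
  have hS₀ : #S₀ ≤ #S := card_filter_le _ _
  have hcov₀ : ∀ x y : ZMod p, ¬ IsSquare (x ^ 2 - y) → ∃ l ∈ S₀, (x, y) ∈ linePts l := by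
    intro x y hxy
    obtain ⟨l, hl, hm⟩ := hcov x y hxy
    exact ⟨l, mem_filter.2 ⟨hl, fun h => hxy (tangent_no_interior (by omega) h hm)⟩, hm⟩
  have hlow : p ≤ #S₀ + 4 := card_lines_ge (by omega) S₀ hD hcov₀
  obtain ⟨P, hP, hPcov⟩ := exists_rank C S₀ (by omega) (by omega) hcov₀
  obtain ⟨X, Y, hX, hrect, hY, hX'⟩ := exists_piece S₀ hD (by omega) hlow r (by omega)
    (by rw [← hDn]; omega) (by omega) P hP hPcov
  rw [← hDn] at hX
  have hX'' : ∀ x ∉ X, #(Y.filter fun y => (y, x) ∈ covered S₀) ≤ r := by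
    intro x hx
    refine le_trans (le_of_eq ?_) (hX' x hx)
    congr 1
    refine filter_congr fun y _ => ?_
    simp [covered, pt_comm x y, ne_comm]
  set ζ := #Xᶜ + #Yᶜ with hζ
  set q := Nat.sqrt (10 * r * ζ) with hq
  set s := q + 1 with hs
  set L := 8 * Dn * (2 * s + 12) with hL
  have hesc : ∀ A B : Finset (ZMod p), (∀ y ∉ B, #(A.filter fun x => (x, y) ∈ covered S₀) ≤ r) →
      #Bᶜ ≤ ζ → ∑ l ∈ S₀, #(A.filter fun x => sigFun l x ∉ B) ≤ (s + 6) * p := by
    intro A B hB hBle
    have h := escape_sq_le S₀ (by omega) (by omega) A B r hB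
    have h1 : #Bᶜ * r * (10 * p ^ 2) ≤ (s * p) ^ 2 := by
      rw [mul_pow]
      calc #Bᶜ * r * (10 * p ^ 2) = 10 * r * #Bᶜ * p ^ 2 := by ring
        _ ≤ _ := by
            refine Nat.mul_le_mul_right _ ((Nat.mul_le_mul_left _ hBle).trans ?_)
            exact (Nat.lt_succ_sqrt' (10 * r * ζ)).le
    have h2 := (Nat.pow_le_pow_iff_left two_ne_zero).1 (h.trans h1)
    calc ∑ l ∈ S₀, #(A.filter fun x => sigFun l x ∉ B)
        ≤ ∑ l ∈ S₀, (#(A.filter fun x => x ∈ valid l ∧ sigFun l x ∉ B) + 3) := by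
          refine sum_le_sum fun l hl => ?_
          refine (card_le_card (t := (A.filter fun x => x ∈ valid l ∧ sigFun l x ∉ B) ∪ (valid l)ᶜ)
            fun x hx => ?_).trans ((card_union_le _ _).trans
              (Nat.add_le_add_left (card_valid_compl (hD l hl) (by omega)) _))
          obtain ⟨h1, h2⟩ := mem_filter.1 hx
          by_cases hv : x ∈ valid l
          · exact mem_union_left _ (mem_filter.2 ⟨h1, hv, h2⟩)
          · exact mem_union_right _ (mem_compl.2 hv)
      _ ≤ (s + 6) * p := by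
          rw [sum_add_distrib, sum_const, smul_eq_mul, add_mul]
          omega
  have hgood : 8 * Dn * #(S₀.filter fun l => L < lerr X Y l) ≤ p := by
    have h1 : #(S₀.filter fun l => L < lerr X Y l) * L ≤ (2 * s + 12) * p := by
      calc #(S₀.filter fun l => L < lerr X Y l) * L
          ≤ ∑ l ∈ S₀.filter (fun l => L < lerr X Y l), lerr X Y l := by
            rw [← smul_eq_mul]
            exact card_nsmul_le_sum _ _ _ fun l hl => (mem_filter.1 hl).2.le
        _ ≤ ∑ l ∈ S₀, lerr X Y l := sum_le_sum_of_subset (filter_subset _ _)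
        _ ≤ (2 * s + 12) * p := by
            simp only [lerr, sum_add_distrib]
            have := hesc X Y hY (by omega)
            have := hesc Y X hX'' (by omega)
            rw [show (2 * s + 12) * p = (s + 6) * p + (s + 6) * p by ring]
            omega
    have h2 : (2 * s + 12) * (8 * Dn * #(S₀.filter fun l => L < lerr X Y l)) ≤ (2 * s + 12) * p :=
      le_trans (le_of_eq (by rw [hL]; ring)) h1
    exact Nat.le_of_mul_le_mul_left h2 (by omega)
  obtain ⟨l₁, hl₁, hl₁L⟩ : ∃ l ∈ S₀, lerr X Y l ≤ L := by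
    by_contra hc
    push Not at hc
    rw [filter_true_of_mem hc] at hgood
    have : p - 4 ≤ #S₀ := by omega
    nlinarith
  have hbal1 : #Xᶜ ≤ #Yᶜ + L ∧ #Yᶜ ≤ #Xᶜ + L := by
    have a1 := card_sub_le X Y (hD l₁ hl₁)
    have a2 := card_sub_le Y X (hD l₁ hl₁)
    have a3 := (card_le_univ X).trans_eq (ZMod.card p)
    have a4 := (card_le_univ Y).trans_eq (ZMod.card p)
    simp only [lerr] at hl₁L
    rw [card_compl, card_compl, ZMod.card]
    omega
  have hW : ζ ≤ γ * s := by
    have hL' : L ≤ 112 * Dn * s := by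
      rw [hL, show 112 * Dn * s = 8 * Dn * (14 * s) by ring]
      exact Nat.mul_le_mul_left _ (by omega)
    have e1 : 2 * (384 * Dn ^ 2 * (2 * (112 * Dn * s) + 5)) + 112 * Dn * s + 116 * Dn ≤ γ * s := by
      have c1 : Dn ≤ Dn ^ 3 := Nat.le_self_pow (by norm_num) _
      have c2 : Dn ^ 2 ≤ Dn ^ 3 := Nat.pow_le_pow_right hD1 (by norm_num)
      have c3 : Dn * s ≤ Dn ^ 3 * s := Nat.mul_le_mul_right _ c1
      have c4 : Dn ≤ Dn * s := Nat.le_mul_of_pos_right _ (by omega)
      have c5 : Dn ^ 2 ≤ Dn ^ 3 * s := c2.trans (Nat.le_mul_of_pos_right _ (by omega))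
      have e0 : 2 * (384 * Dn ^ 2 * (2 * (112 * Dn * s) + 5)) + 112 * Dn * s + 116 * Dn
          = 172032 * (Dn ^ 3 * s) + 3840 * Dn ^ 2 + 112 * (Dn * s) + 116 * Dn := by ring
      rw [e0, hγ, mul_assoc 200000 (Dn ^ 3) s]
      omega
    rcases piece_small S₀ hD (by omega) hlow X Y r Dn L hX hY hgood (by omega) with h | h
    · omega
    · have hmono : 384 * Dn ^ 2 * (2 * L + 5) ≤ 384 * Dn ^ 2 * (2 * (112 * Dn * s) + 5) :=
        Nat.mul_le_mul_left _ (by omega)
      omega
  have hζW : ζ ≤ γ * (20 * r * γ + 1) := by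
    refine hW.trans (Nat.mul_le_mul_left _ ?_)
    have h1 : q ^ 2 ≤ 10 * r * ζ := Nat.sqrt_le' _
    rcases Nat.eq_zero_or_pos q with h0 | h0
    · omega
    have h2 : q * q ≤ q * (20 * r * γ) := by
      calc q * q = q ^ 2 := by ring
        _ ≤ 10 * r * ζ := h1
        _ ≤ 10 * r * (γ * (q + 1)) := Nat.mul_le_mul_left _ hW
        _ ≤ 10 * r * (γ * (2 * q)) := Nat.mul_le_mul_left _ (Nat.mul_le_mul_left _ (by omega))
        _ = q * (20 * r * γ) := by ring
    have := Nat.le_of_mul_le_mul_left h2 h0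
    omega
  exact (uncovered_le (by omega) S S₀ (filter_subset _ _) X Y hcov₀ hrect).trans
    (Nat.mul_le_mul_right _ (by omega))

/-- Covers of the interior by about `p` lines are near pencils or near parallel classes. -/
theorem interior_rigid (C : ℕ) : ∃ K p₀ : ℕ, ∀ p, ∀ _ : Fact p.Prime, p₀ ≤ p →
    ∀ S : Finset (PLine p), #S ≤ p + C →
      (∀ x y : ZMod p, ¬ IsSquare (x ^ 2 - y) → ∃ l ∈ S, (x, y) ∈ linePts l) →
      (∃ o, #S ≤ mult S linePts o + K) ∨ ∃ c, #S ≤ #(S.filter fun l => l.1 = c) + K := by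
  obtain ⟨W, p₀, hW⟩ := few_uncovered C
  set D := C + W + 1 with hDdef
  refine ⟨4 * D, p₀ + 200 * D * D + 4 * (W + 2), ?_⟩
  intro p _ hp S hS hcov
  have hun := hW p ‹_› (by omega) S hS hcov
  have hex := excess_add_covered (S := S) (pts := linePts) (q := p) fun l _ => card_linePts l
  have hsplit := card_filter_add_card_filter_not (s := (univ : Finset (ZMod p × ZMod p)))
    (fun Q => mult S linePts Q = 0)
  rw [card_univ, Fintype.card_prod, ZMod.card] at hsplit
  simp only [ne_eq] at hex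
  have hn : p ≤ #S + (W + 1) := by
    refine Nat.le_of_mul_le_mul_right (c := p) ?_ (by omega)
    rw [add_mul]
    omega
  have hE : excess S linePts ≤ D * p := by
    have h1 := Nat.mul_le_mul_right p hS
    rw [add_mul] at h1
    rw [hDdef, add_mul, add_mul, one_mul]
    rw [add_mul, one_mul] at hun
    omega
  rcases near_pencil (pts := linePts) (cls := Prod.fst) (fun l _ l' _ hne => linePts_meet_le l l' hne)
    (fun l _ l' _ hne => linePts_meet l l' hne)
    (fun l _ l' _ hne h => linePts_disjoint l l' hne h) hE (by omega) (by omega) (by omega) with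
    ⟨o, ho⟩ | ⟨c, hc⟩
  · exact Or.inl ⟨o, by omega⟩
  · exact Or.inr ⟨c, by omega⟩

/-- The interior points of the parabola `y = x ^ 2` on a line. -/
noncomputable def interiorPts (l : PLine p) : Finset (ZMod p × ZMod p) :=
  (linePts l).filter fun Q => ¬ IsSquare (Q.1 ^ 2 - Q.2)

/-- A line other than a tangent has at least `(p - 4) / 2` interior points. -/
lemma interior_line_ge (h3 : 3 ≤ p) {l : PLine p} (hD : disc l ≠ 0) :
    p ≤ 2 * #(interiorPts l) + 4 := by
  have h1 := card_filter_add_card_filter_not (s := linePts l) (fun Q => ¬ IsSquare (Q.1 ^ 2 - Q.2))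
  rw [card_linePts] at h1
  set F := univ.filter fun x => cA l * x ^ 2 + 2 * cB l * x + cC l = 0 with hF
  have hFc : #F ≤ 2 := by
    refine card_roots_two ?_
    by_contra hc
    push Not at hc
    refine hD ?_
    have : cB l = 0 := (mul_eq_zero.1 hc.2).resolve_left (two_ne h3)
    simp [disc, hc.1, this]
  have hsub : ((linePts l).filter fun Q => ¬ ¬ IsSquare (Q.1 ^ 2 - Q.2)) ⊆
      (valid l).image (fun x => pt x (sigFun l x)) ∪ F.image fun x => pt x x := by
    rintro ⟨a, b⟩ hQ
    obtain ⟨hm, hsq⟩ := mem_filter.1 hQ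
    obtain ⟨u, hu⟩ := not_not.1 hsq
    simp only at hu
    have h2 := two_ne (p := p) h3
    have hpt : pt (a + u) (a - u) = (a, b) := by
      simp only [pt, Prod.mk.injEq]
      exact ⟨by field_simp; ring, by linear_combination hu⟩
    rw [← hpt] at hm
    by_cases hne : a + u = a - u
    · refine mem_union_right _ (mem_image.2 ⟨a + u, mem_filter.2 ⟨mem_univ _, ?_⟩, ?_⟩)
      · rw [← hne, mem_pt_iff] at hm
        linear_combination hm
      · rw [← hpt, ← hne]
    · obtain ⟨hv, he⟩ := valid_of_mem hD hne hm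
      exact mem_union_left _ (mem_image.2 ⟨a + u, hv, by rw [he, hpt]⟩)
  have hpairs : 2 * #((valid l).image fun x => pt x (sigFun l x)) ≤ #(valid l) := by
    refine mul_card_image_le_card_of_maps_to (f := fun x => pt x (sigFun l x))
      (fun x hx => mem_image_of_mem _ hx) 2 fun Q hQ => ?_
    obtain ⟨x, hx, rfl⟩ := mem_image.1 hQ
    have hx' := (mem_valid.1 hx).2
    have hinv := sigFun_involutive hD x
    have hv : sigFun l x ∈ valid l := by
      refine (valid_of_mem hD hx' ?_).1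
      rw [pt_comm]; exact pt_mem_of_valid hx
    refine le_trans (le_of_eq (card_pair (Ne.symm hx')).symm) (card_le_card (s := {x, sigFun l x}) ?_)
    intro y hy
    simp only [mem_insert, mem_singleton] at hy
    rcases hy with rfl | rfl
    · exact mem_filter.2 ⟨hx, rfl⟩
    · exact mem_filter.2 ⟨hv, by rw [hinv, pt_comm]⟩
  have h5 := (card_le_univ (valid l)).trans_eq (ZMod.card p)
  have h4 := (card_le_card hsub).trans ((card_union_le _ _).trans
    (Nat.add_le_add_left card_image_le _))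
  unfold interiorPts
  omega

/-- The pencil or class is complete on lines with more than `K` interior points. -/
theorem interior_rigid_exact (C : ℕ) : ∃ K p₀ : ℕ, ∀ p, ∀ _ : Fact p.Prime, p₀ ≤ p →
    ∀ S : Finset (PLine p), #S ≤ p + C →
      (∀ x y : ZMod p, ¬ IsSquare (x ^ 2 - y) → ∃ l ∈ S, (x, y) ∈ linePts l) →
      (∃ o, #S ≤ mult S linePts o + K ∧
        ∀ l, o ∈ linePts l → K + 1 < #(interiorPts l) → l ∈ S) ∨
      ∃ c, #S ≤ #(S.filter fun l => l.1 = c) + K ∧
        ∀ l : PLine p, l.1 = c → K + 1 < #(interiorPts l) → l ∈ S := by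
  obtain ⟨K, p₀, h⟩ := interior_rigid C
  refine ⟨K, p₀, fun p hF hp S hS hcov => ?_⟩
  have key : ∀ (l : PLine p) (T : Finset (PLine p)) (Z : Finset (ZMod p × ZMod p)),
      l ∉ S → T ⊆ S → (∀ l' ∈ S, l' ∉ T → linePts l ∩ linePts l' ⊆ Z) → #Z ≤ 1 →
      #(interiorPts l) ≤ #T + 1 := by
    intro l T Z hl hT hZ hZ1
    have hsub : interiorPts l ⊆ Z ∪ T.biUnion fun l' => linePts l ∩ linePts l' := by
      intro Q hQ
      obtain ⟨hQl, hQi⟩ := mem_filter.1 hQ
      obtain ⟨l', hl', hQl'⟩ := hcov Q.1 Q.2 hQi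
      by_cases hT' : l' ∈ T
      · exact mem_union_right _ (mem_biUnion.2 ⟨l', hT', mem_inter.2 ⟨hQl, hQl'⟩⟩)
      · exact mem_union_left _ (hZ l' hl' hT' (mem_inter.2 ⟨hQl, hQl'⟩))
    have h1 := card_biUnion_le_card_mul T (fun l' => linePts l ∩ linePts l') 1
      fun l' hl' => linePts_meet_le l l' fun e => hl (e ▸ hT hl')
    have := (card_le_card hsub).trans (card_union_le _ _)
    omega
  rcases h p hF hp S hS hcov with ⟨o, ho⟩ | ⟨c, hc⟩
  · refine Or.inl ⟨o, ho, fun l hol hl => ?_⟩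
    by_contra hlS
    have h1 := key l (S.filter fun l' => o ∉ linePts l') {o} hlS (filter_subset _ _)
      (fun l' hl' hT Q hQ => ?_) (by simp)
    · have := card_filter_add_card_filter_not (s := S) (fun l' => o ∈ linePts l')
      simp only [mult] at ho
      omega
    · have ho' : o ∈ linePts l' := by
        by_contra h'; exact hT (mem_filter.2 ⟨hl', h'⟩)
      exact mem_singleton.2 (card_le_one.1 (linePts_meet_le l l' fun e => hlS (e ▸ hl')) _ hQ _
        (mem_inter.2 ⟨hol, ho'⟩))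
  · refine Or.inr ⟨c, hc, fun l hlc hl => ?_⟩
    by_contra hlS
    have h1 := key l (S.filter fun l' => ¬ l'.1 = c) ∅ hlS (filter_subset _ _)
      (fun l' hl' hT Q hQ => ?_) (by simp)
    · have := card_filter_add_card_filter_not (s := S) (fun l' => l'.1 = c)
      omega
    · have hc' : l'.1 = c := by
        by_contra h'; exact hT (mem_filter.2 ⟨hl', h'⟩)
      obtain ⟨h1, h2⟩ := mem_inter.1 hQ
      exact absurd h2 (disjoint_left.1
        (linePts_disjoint l l' (fun e => hlS (e ▸ hl')) (hlc.trans hc'.symm)) h1)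

end Vale.Agent.P045.Interior
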