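import Mathlib
import Vale.Agent.P045.InteriorPencil

/-!
# P045: forced lines of a small cover of the punctured interior

If at most `p + C` lines cover every interior point of `y = x ^ 2` except one point `o` and the
points of the vertical line `x = c`, then they contain every line of some pencil or some parallel
class, apart from the tangents and `x = c`.
-/

open Finset
open scoped Classical

namespace Vale.Agent.P045.Interior

variable {p : ℕ} [hp : Fact p.Prime]

/-- The pencil of lines through a point. -/
noncomputable def pencil (Q : ZMod p × ZMod p) : Finset (PLine p) :=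
  univ.filter fun l => Q ∈ linePts l

/-- The lines of one slope. -/
noncomputable def slopeClass (s : Option (ZMod p)) : Finset (PLine p) :=
  univ.filter fun l => l.1 = s

/-- The special lines: the tangents and `x = c`. -/
noncomputable def specialLines (c : ZMod p) : Finset (PLine p) :=
  univ.filter fun l => disc l = 0 ∨ l = (none, c)

lemma mem_pencil {Q : ZMod p × ZMod p} {l : PLine p} : l ∈ pencil Q ↔ Q ∈ linePts l := by
  simp [pencil]

lemma mem_slopeClass {s : Option (ZMod p)} {l : PLine p} : l ∈ slopeClass s ↔ l.1 = s := by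
  simp [slopeClass]

lemma mem_specialLines {c : ZMod p} {l : PLine p} :
    l ∈ specialLines c ↔ disc l = 0 ∨ l = (none, c) := by
  simp [specialLines]

lemma card_pencil (Q : ZMod p × ZMod p) : #(pencil Q) = p + 1 := by
  have h : pencil Q =
      insert (none, Q.1) (univ.image fun a : ZMod p => (some a, Q.2 - a * Q.1)) := by
    ext ⟨(_ | a), b⟩ <;>
      simp only [mem_pencil, mem_linePts_none, mem_linePts_some, mem_insert, mem_image, mem_univ,
        true_and, Prod.mk.injEq, Option.some.injEq, reduceCtorEq, false_and, exists_const,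
        or_false, false_or, exists_eq_left]
    · exact eq_comm
    · constructor <;> intro h <;> linear_combination h
  rw [h, card_insert_of_notMem (by simp), card_image_of_injective _ fun a a' e =>
    Option.some_injective _ (Prod.mk.injEq .. ▸ e).1, card_univ, ZMod.card]

lemma card_slopeClass (s : Option (ZMod p)) : #(slopeClass s) = p := by
  have h : slopeClass s = univ.image fun b : ZMod p => (s, b) := by
    ext ⟨t, b⟩
    simp [mem_slopeClass, eq_comm]
  rw [h, card_image_of_injective _ fun a a' e => by simpa using e, card_univ, ZMod.card]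

lemma disc_none (h3 : 3 ≤ p) (b : ZMod p) : disc ((none, b) : PLine p) ≠ 0 := by
  have := two_ne (p := p) h3
  simp [disc, cA, cB, cC, this]

lemma disc_some_eq_zero (h3 : 3 ≤ p) {a b : ZMod p} :
    disc ((some a, b) : PLine p) = 0 ↔ b = -(a ^ 2 / 4) := by
  have h2 := two_ne (p := p) h3
  have h4 : (4 : ZMod p) ≠ 0 := by
    rw [show (4 : ZMod p) = 2 * 2 by norm_num]; exact mul_ne_zero h2 h2
  simp only [disc, cA, cB, cC]
  constructor <;> intro h
  · field_simp
    field_simp at h
    linear_combination h
  · subst h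
    field_simp
    ring

/-- A parallel class has exactly one special line. -/
lemma card_slopeClass_sdiff (h3 : 3 ≤ p) (s : Option (ZMod p)) (c : ZMod p) :
    #(slopeClass s \ specialLines c) + 1 = p := by
  have h : slopeClass s ∩ specialLines c =
      {(s, match s with | none => c | some a => -(a ^ 2 / 4))} := by
    ext ⟨t, b⟩
    simp only [mem_inter, mem_slopeClass, mem_specialLines, mem_singleton, Prod.mk.injEq]
    constructor
    · rintro ⟨rfl, h⟩
      refine ⟨rfl, ?_⟩
      rcases t with _ | a
      · simpa [disc_none h3] using h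
      · simpa [disc_some_eq_zero h3] using h
    · rintro ⟨rfl, rfl⟩
      refine ⟨rfl, ?_⟩
      rcases t with _ | a
      · exact Or.inr ⟨rfl, rfl⟩
      · exact Or.inl ((disc_some_eq_zero h3).2 rfl)
  have := card_sdiff_add_card_inter (slopeClass s) (specialLines c)
  rw [card_slopeClass, h, card_singleton] at this
  omega

/-- At most three special lines pass through a point, three only on `x = c`. -/
lemma card_pencil_special (h3 : 3 ≤ p) (Q : ZMod p × ZMod p) (c : ZMod p) :
    #(pencil Q ∩ specialLines c) ≤ 3 ∧ (Q.1 ≠ c → #(pencil Q ∩ specialLines c) ≤ 2) := by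
  have hT : #((pencil Q).filter fun l => disc l = 0) ≤ 2 := by
    refine le_trans (card_le_card (t := (univ.filter fun x => (1 : ZMod p) * x ^ 2 +
      (-(2 * Q.1)) * x + Q.2 = 0).image fun x => ((some (2 * x), -x ^ 2) : PLine p)) ?_)
      (card_image_le.trans (card_roots_two (Or.inl one_ne_zero)))
    rintro ⟨(_ | a), b⟩ hl <;>
      simp only [mem_filter, mem_pencil, mem_linePts_none, mem_linePts_some] at hl
    · exact absurd hl.2 (disc_none h3 b)
    · have h2 := two_ne (p := p) h3
      have h4 : (4 : ZMod p) ≠ 0 := by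
        rw [show (4 : ZMod p) = 2 * 2 by norm_num]; exact mul_ne_zero h2 h2
      have hb := (disc_some_eq_zero h3).1 hl.2
      refine mem_image.2 ⟨a / 2, mem_filter.2 ⟨mem_univ _, ?_⟩, ?_⟩
      · rw [hl.1, hb]
        field_simp
        ring
      · simp only [Prod.mk.injEq, Option.some.injEq]
        refine ⟨by field_simp, ?_⟩
        rw [hb]
        field_simp
        ring
  have hsub : pencil Q ∩ specialLines c ⊆
      ((pencil Q).filter fun l => disc l = 0) ∪ (pencil Q ∩ {(none, c)}) := by
    intro l hl
    obtain ⟨h1, h2⟩ := mem_inter.1 hl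
    rcases mem_specialLines.1 h2 with h | h
    · exact mem_union_left _ (mem_filter.2 ⟨h1, h⟩)
    · exact mem_union_right _ (mem_inter.2 ⟨h1, mem_singleton.2 h⟩)
  have hu := (card_le_card hsub).trans (card_union_le _ _)
  have h1 : #(pencil Q ∩ {((none, c) : PLine p)}) ≤ 1 :=
    (card_le_card inter_subset_right).trans (card_singleton _).le
  refine ⟨by omega, fun hQ => ?_⟩
  have h0 : #(pencil Q ∩ {((none, c) : PLine p)}) = 0 := by
    rw [card_eq_zero, inter_singleton_of_notMem fun h => hQ (mem_linePts_none.1 (mem_pencil.1 h))]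
  omega

/-- A small cover of the punctured interior contains a punctured pencil or class. -/
theorem forced_lines (C : ℕ) : ∃ p₀ : ℕ, ∀ p, ∀ _ : Fact p.Prime, p₀ ≤ p →
    ∀ (N : Finset (PLine p)) (o : ZMod p × ZMod p) (c : ZMod p), #N ≤ p + C →
      (∀ x y : ZMod p, ¬ IsSquare (x ^ 2 - y) → (x, y) ≠ o → x ≠ c →
        ∃ l ∈ N, (x, y) ∈ linePts l) →
      (∃ Q, pencil Q \ specialLines c ⊆ N) ∨ ∃ s, slopeClass s \ specialLines c ⊆ N := by
  obtain ⟨K, p₀, h⟩ := interior_rigid (C + 2)
  refine ⟨p₀ + 2 * C + 2 * K + 20, fun p hF hp N o c hN hcov => ?_⟩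
  set S := insert ((none, c) : PLine p) (insert ((none, o.1) : PLine p) N) with hS
  have hS1 : #S ≤ p + (C + 2) := by
    have a1 := card_insert_le ((none, o.1) : PLine p) N
    have a2 := card_insert_le ((none, c) : PLine p) (insert ((none, o.1) : PLine p) N)
    rw [hS]; omega
  have hScov : ∀ x y : ZMod p, ¬ IsSquare (x ^ 2 - y) → ∃ l ∈ S, (x, y) ∈ linePts l := by
    intro x y hxy
    by_cases hx : x = c
    · exact ⟨_, mem_insert_self _ _, mem_linePts_none.2 hx⟩
    by_cases ho : (x, y) = o
    · exact ⟨_, mem_insert_of_mem (mem_insert_self _ _), mem_linePts_none.2 (by rw [← ho])⟩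
    obtain ⟨l, hl, hm⟩ := hcov x y hxy ho hx
    exact ⟨l, mem_insert_of_mem (mem_insert_of_mem hl), hm⟩
  have hstep : ∀ l : PLine p, l ∉ specialLines c →
      ∀ T ⊆ N, ∀ Z : Finset (ZMod p × ZMod p), #Z ≤ 1 → #T ≤ K + 2 →
      (∀ l' ∈ N, l' ∉ T → l' ≠ l → linePts l ∩ linePts l' ⊆ Z) → l ∈ N := by
    intro l hl T hT Z hZ hTc hrest
    have hd : disc l ≠ 0 := fun h => hl (mem_specialLines.2 (Or.inl h))
    have hge := interior_line_ge (by omega) hd
    by_contra hlN
    have hsub : interiorPts l ⊆ ({o} ∪ (linePts l ∩ linePts ((none, c) : PLine p))) ∪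
        (Z ∪ T.biUnion fun l' => linePts l ∩ linePts l') := by
      intro P hP
      obtain ⟨hPl, hPi⟩ := mem_filter.1 hP
      by_cases hx : P.1 = c
      · exact mem_union_left _ (mem_union_right _ (mem_inter.2 ⟨hPl, mem_linePts_none.2 hx⟩))
      by_cases hPo : P = o
      · exact mem_union_left _ (mem_union_left _ (mem_singleton.2 hPo))
      obtain ⟨l', hl', hPl'⟩ := hcov P.1 P.2 hPi hPo hx
      have hne : l' ≠ l := fun e => hlN (e ▸ hl')
      by_cases hT' : l' ∈ T
      · exact mem_union_right _ (mem_union_right _ (mem_biUnion.2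
          ⟨l', hT', mem_inter.2 ⟨hPl, hPl'⟩⟩))
      · exact mem_union_right _ (mem_union_left _ (hrest l' hl' hT' hne
          (mem_inter.2 ⟨hPl, hPl'⟩)))
    have h1 := card_biUnion_le_card_mul T (fun l' => linePts l ∩ linePts l') 1
      fun l' hl' => linePts_meet_le l l' fun e => hlN (e ▸ hT hl')
    have h2 := linePts_meet_le l ((none, c) : PLine p)
      fun e => hl (mem_specialLines.2 (Or.inr e))
    have := (card_le_card hsub).trans ((card_union_le _ _).trans
      (Nat.add_le_add (card_union_le _ _) (card_union_le _ _)))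
    rw [card_singleton] at this
    omega
  have hNS : N ⊆ S := fun l hl => mem_insert_of_mem (mem_insert_of_mem hl)
  rcases h p hF (by omega) S hS1 hScov with ⟨Q, hQ⟩ | ⟨s, hs⟩
  · refine Or.inl ⟨Q, fun l hl => ?_⟩
    obtain ⟨hlQ, hls⟩ := mem_sdiff.1 hl
    refine hstep l hls
      (N.filter fun l' => Q ∉ linePts l') (filter_subset _ _) {Q} (card_singleton _).le ?_ ?_
    · have h1 := card_filter_add_card_filter_not (s := S) (fun l' => Q ∈ linePts l')
      have h2 : #(N.filter fun l' => Q ∉ linePts l') ≤ #(S.filter fun l' => Q ∉ linePts l') :=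
        card_le_card (filter_subset_filter _ hNS)
      simp only [mult] at hQ
      omega
    · intro l' hl' hT hne P hP
      have hQ' : Q ∈ linePts l' := by
        by_contra h'; exact hT (mem_filter.2 ⟨hl', h'⟩)
      exact mem_singleton.2 (card_le_one.1 (linePts_meet_le l l' (Ne.symm hne)) _ hP _
        (mem_inter.2 ⟨mem_pencil.1 hlQ, hQ'⟩))
  · refine Or.inr ⟨s, fun l hl => ?_⟩
    obtain ⟨hlS, hls⟩ := mem_sdiff.1 hl
    refine hstep l hls
      (N.filter fun l' => ¬ l'.1 = s) (filter_subset _ _) ∅ (by simp) ?_ ?_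
    · have h1 := card_filter_add_card_filter_not (s := S) (fun l' => l'.1 = s)
      have h2 : #(N.filter fun l' => ¬ l'.1 = s) ≤ #(S.filter fun l' => ¬ l'.1 = s) :=
        card_le_card (filter_subset_filter _ hNS)
      omega
    · intro l' hl' hT hne P hP
      have hc' : l'.1 = s := by
        by_contra h'; exact hT (mem_filter.2 ⟨hl', h'⟩)
      obtain ⟨h1, h2⟩ := mem_inter.1 hP
      exact absurd h2 (disjoint_left.1
        (linePts_disjoint l l' (Ne.symm hne) ((mem_slopeClass.1 hlS).trans hc'.symm)) h1)

/-- The forced lines are all but at most `k + 4` of a cover of `p + k` lines. -/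
theorem forced_count {c : ZMod p} (h3 : 3 ≤ p) (N : Finset (PLine p)) :
    (∀ Q, pencil Q \ specialLines c ⊆ N →
      #(N \ (pencil Q \ specialLines c)) + (p + 1) = #N + #(pencil Q ∩ specialLines c)) ∧
    ∀ s, slopeClass s \ specialLines c ⊆ N →
      #(N \ (slopeClass s \ specialLines c)) + p = #N + 1 := by
  refine ⟨fun Q h => ?_, fun s h => ?_⟩
  · have h1 := card_sdiff_add_card_inter (pencil Q) (specialLines c)
    have h2 := card_sdiff_of_subset h
    have h4 := card_le_card h
    rw [card_pencil] at h1
    omega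
  · have h1 := card_slopeClass_sdiff h3 s c
    have h2 := card_sdiff_of_subset h
    have h4 := card_le_card h
    omega

end Vale.Agent.P045.Interior
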