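import Mathlib

/-!
# P045: lacunary polynomials along a line

Linear forms over `ZMod p` whose zero sets, together with a small set `U`, cover the plane minus the
axis `y = 0`. We show that they have few collisions on the axis, unless many of them are parallel
to it or many of them pass through one of its points.
-/

open Finset Polynomial
open scoped Classical

namespace Vale.Agent.P045

variable {p : ℕ} [Fact p.Prime] {ι : Type*} [DecidableEq ι]

/-- The sum over `y` of a product of `#s` linear forms has degree at most `#s - (p - 1)`. -/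
theorem natDegree_sum_prod_le (s : Finset ι) (a b c : ι → ZMod p) (i j : ℕ) :
    (∑ y : ZMod p, C (y ^ j) * X ^ i * ∏ l ∈ s, (C (a l) * X + C (b l * y + c l))).natDegree
      ≤ i + j + #s - (p - 1) := by
  induction s using Finset.induction generalizing i j with
  | empty =>
    simp only [prod_empty, mul_one, card_empty, add_zero]
    rw [← Finset.sum_mul, ← map_sum]
    rcases Nat.lt_or_ge j (p - 1) with h | h
    · rw [FiniteField.sum_pow_lt_card_sub_one (K := ZMod p) j (by rw [ZMod.card]; exact h)]
      simp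
    · exact (natDegree_C_mul_le _ _).trans ((natDegree_X_pow_le i).trans (by omega))
  | insert l s hl ih =>
    rw [card_insert_of_notMem hl]
    have h : ∀ y : ZMod p,
        C (y ^ j) * X ^ i * ∏ m ∈ insert l s, (C (a m) * X + C (b m * y + c m)) =
          C (a l) * (C (y ^ j) * X ^ (i + 1) * ∏ m ∈ s, (C (a m) * X + C (b m * y + c m))) +
          C (b l) * (C (y ^ (j + 1)) * X ^ i * ∏ m ∈ s, (C (a m) * X + C (b m * y + c m))) +
          C (c l) * (C (y ^ j) * X ^ i * ∏ m ∈ s, (C (a m) * X + C (b m * y + c m))) := by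
      intro y
      rw [prod_insert hl]
      simp only [map_add, map_mul, map_pow]
      ring
    simp only [h, sum_add_distrib, ← mul_sum]
    refine (natDegree_add_le _ _).trans (max_le ((natDegree_add_le _ _).trans (max_le ?_ ?_)) ?_)
    · exact (natDegree_C_mul_le _ _).trans ((ih (i + 1) j).trans (by omega))
    · exact (natDegree_C_mul_le _ _).trans ((ih i (j + 1)).trans (by omega))
    · exact (natDegree_C_mul_le _ _).trans ((ih i j).trans (by omega))

/-- A polynomial vanishing on `ZMod p` is a multiple of `X ^ p - X`. -/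
theorem X_pow_sub_X_dvd {H : (ZMod p)[X]} (h : ∀ x, H.eval x = 0) : X ^ p - X ∣ H := by
  rcases eq_or_ne H 0 with rfl | hH
  · exact dvd_zero _
  have hp : 1 < p := (Fact.out : p.Prime).one_lt
  have hdeg : (X ^ p - X : (ZMod p)[X]).natDegree = p :=
    FiniteField.X_pow_card_sub_X_natDegree_eq _ hp
  have hroots : (X ^ p - X : (ZMod p)[X]).roots = (univ : Finset (ZMod p)).val := by
    have := FiniteField.roots_X_pow_card_sub_X (ZMod p)
    rwa [ZMod.card] at this
  have hsplit := prod_multiset_X_sub_C_of_monic_of_roots_card_eq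
    (monic_X_pow_sub (p := (X : (ZMod p)[X])) (by rw [degree_X]; exact_mod_cast hp))
    (by rw [hroots, hdeg]; exact ZMod.card p)
  rw [← hsplit, hroots, Multiset.prod_X_sub_C_dvd_iff_le_roots hH,
    Multiset.le_iff_subset (univ : Finset (ZMod p)).nodup]
  exact fun x _ => (mem_roots hH).2 (h x)

/-- Two polynomials of degree below `p` with vanishing Wronskian are proportional. -/
theorem exists_eq_C_mul {f g : (ZMod p)[X]} (hf : f ≠ 0) (hfp : f.natDegree < p)
    (hgp : g.natDegree < p) (h : derivative g * f - g * derivative f = 0) :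
    ∃ c, g = C c * f := by
  set k := f.natDegree with hk
  refine ⟨g.coeff k / f.leadingCoeff, sub_eq_zero.1 ?_⟩
  set g₁ := g - C (g.coeff k / f.leadingCoeff) * f with hg₁
  by_contra hne
  have hlc : f.leadingCoeff ≠ 0 := leadingCoeff_ne_zero.2 hf
  have hk0 : g₁.coeff k = 0 := by
    rw [hg₁, coeff_sub, coeff_C_mul, hk, coeff_natDegree, div_mul_cancel₀ _ hlc, sub_self]
  have hW : derivative g₁ * f - g₁ * derivative f = 0 := by
    rw [hg₁, map_sub, derivative_mul, derivative_C]
    linear_combination h
  set m := g₁.natDegree with hm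
  have hmk : m ≠ k := fun e => leadingCoeff_ne_zero.2 hne (by rw [leadingCoeff, ← hm, e, hk0])
  have hmp : m < p := (natDegree_sub_le _ _).trans_lt
    (max_lt hgp ((natDegree_C_mul_le _ _).trans_lt hfp))
  have hX : ∀ q : (ZMod p)[X], (X * derivative q).natDegree ≤ q.natDegree ∧
      (X * derivative q).coeff q.natDegree = (q.natDegree : ZMod p) * q.leadingCoeff := by
    intro q
    have key : ∀ n : ℕ, (X * derivative q).coeff n = (n : ZMod p) * q.coeff n := by
      intro n
      cases n with
      | zero => simp [mul_coeff_zero]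
      | succ n => rw [coeff_X_mul, coeff_derivative]; push_cast; ring
    refine ⟨natDegree_le_iff_coeff_eq_zero.2 fun n hn => ?_, key _⟩
    rw [key, coeff_eq_zero_of_natDegree_lt (by exact_mod_cast hn), mul_zero]
  have h2 : (((X * derivative g₁) * f - g₁ * (X * derivative f))).coeff (m + k) = 0 := by
    rw [show (X * derivative g₁) * f - g₁ * (X * derivative f) =
      X * (derivative g₁ * f - g₁ * derivative f) by ring, hW, mul_zero, coeff_zero]
  rw [coeff_sub, coeff_mul_add_eq_of_natDegree_le (hX g₁).1 le_rfl,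
    coeff_mul_add_eq_of_natDegree_le le_rfl (hX f).1, (hX g₁).2, (hX f).2] at h2
  simp only [coeff_natDegree] at h2
  have h3 : ((m : ZMod p) - (k : ZMod p)) * (g₁.leadingCoeff * f.leadingCoeff) = 0 := by
    rw [hm, hk]; linear_combination h2
  rcases mul_eq_zero.1 h3 with h4 | h4
  · exact hmk (Nat.ModEq.eq_of_lt_of_lt
      ((ZMod.natCast_eq_natCast_iff _ _ _).1 (sub_eq_zero.1 h4)) hmp (by omega))
  · exact mul_ne_zero (leadingCoeff_ne_zero.2 hne) hlc h4

/-- A lacunary polynomial `X ^ p * f + g` has small degree, or a `p`-fold root, or few collisions. -/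
theorem lacunary_cases {f g : (ZMod p)[X]} {e : ℕ} (hf : f.natDegree ≤ e) (hg : g.natDegree ≤ e)
    (he : e < p) :
    (X ^ p * f + g).natDegree ≤ e ∨ (∃ x, p ≤ rootMultiplicity x (X ^ p * f + g)) ∨
      ∑ x, (rootMultiplicity x (X ^ p * f + g) - 1) ≤ 2 * e := by
  rcases eq_or_ne f 0 with rfl | hf0
  · exact Or.inl (by simpa using hg)
  set G := X ^ p * f + g with hG
  set W := derivative g * f - g * derivative f with hWdef
  rcases eq_or_ne W 0 with hW | hW
  · obtain ⟨c, hc⟩ := exists_eq_C_mul hf0 (hf.trans_lt he) (hg.trans_lt he) hW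
    refine Or.inr (Or.inl ⟨-c, ?_⟩)
    have hGeq : G = (X - C (-c)) ^ p * f := by
      rw [hG, hc, map_neg, sub_neg_eq_add, add_pow_char, ← C_pow, ZMod.pow_card]
      ring
    have hne : G ≠ 0 := hGeq ▸ mul_ne_zero (pow_ne_zero _ (X_sub_C_ne_zero _)) hf0
    exact (le_rootMultiplicity_iff hne).2 (hGeq ▸ dvd_mul_right _ _)
  · refine Or.inr (Or.inr ?_)
    have hW' : W = derivative G * f - G * derivative f := by
      rw [hWdef, hG, derivative_add, derivative_mul, derivative_X_pow, CharP.cast_eq_zero]
      simp only [map_zero, zero_mul, zero_add]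
      ring
    have hdeg : W.natDegree ≤ 2 * e := by
      refine (natDegree_sub_le _ _).trans (max_le ?_ ?_) <;> refine natDegree_mul_le.trans ?_
      · have := natDegree_derivative_le g; omega
      · have := natDegree_derivative_le f; omega
    have hdvd : ∀ x, (X - C x) ^ (rootMultiplicity x G - 1) ∣ W := fun x => by
      rw [hW']
      exact dvd_sub
        ((pow_sub_one_dvd_derivative_of_pow_dvd (pow_rootMultiplicity_dvd G x)).mul_right _)
        (((pow_dvd_pow _ (Nat.sub_le _ _)).trans (pow_rootMultiplicity_dvd G x)).mul_right _)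
    have hprod : (∏ x : ZMod p, (X - C x) ^ (rootMultiplicity x G - 1)) ∣ W := by
      refine Finset.prod_dvd_of_coprime (fun x _ y _ hxy => ?_) fun x _ => hdvd x
      have hc : IsCoprime (X - C x) (X - C y) :=
        isCoprime_X_sub_C_of_isUnit_sub (sub_ne_zero.2 hxy).isUnit
      exact hc.pow
    have h := natDegree_le_of_dvd hprod hW
    rw [natDegree_prod _ _ fun x _ => pow_ne_zero _ (X_sub_C_ne_zero x)] at h
    simp only [natDegree_pow, natDegree_X_sub_C, mul_one] at h
    exact h.trans hdeg

/-- The linear forms vanishing at a point of the axis, horizontal ones excepted. -/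
noncomputable def through (s : Finset ι) (a c : ι → ZMod p) (x : ZMod p) : Finset ι :=
  s.filter fun l => a l ≠ 0 ∧ a l * x + c l = 0

omit [DecidableEq ι] in
theorem sum_card_through (s : Finset ι) (a c : ι → ZMod p) :
    ∑ x, #(through s a c x) = #(s.filter fun l => a l ≠ 0) := by
  rw [card_eq_sum_card_fiberwise (f := fun l => -c l / a l) (t := univ) (fun _ _ => mem_univ _)]
  refine sum_congr rfl fun x _ => congrArg card ?_
  ext l
  simp only [through, mem_filter, and_assoc]
  refine and_congr_right fun _ => and_congr_right fun ha => ?_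
  rw [div_eq_iff ha, eq_comm (a := -c l), mul_comm x, eq_neg_iff_add_eq_zero]

theorem le_rootMultiplicity_prod (s : Finset ι) (a c : ι → ZMod p)
    (hac : ∀ l ∈ s, a l = 0 → c l ≠ 0) (x : ZMod p) :
    rootMultiplicity x (∏ l ∈ s, (C (a l) * X + C (c l))) = #(through s a c x) ∧
      (∏ l ∈ s, (C (a l) * X + C (c l))) ≠ 0 ∧
      (∏ l ∈ s, (C (a l) * X + C (c l))).natDegree = #(s.filter fun l => a l ≠ 0) := by
  induction s using Finset.induction with
  | empty => simp [through]
  | insert l s hl ih =>
    obtain ⟨ih1, ih2, ih3⟩ := ih fun m hm => hac m (mem_insert_of_mem hm)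
    have hl' := hac l (mem_insert_self l s)
    rw [prod_insert hl]
    by_cases ha : a l = 0
    · have hc := hl' ha
      have e : C (a l) * X + C (c l) = C (c l) := by rw [ha, map_zero, zero_mul, zero_add]
      have hne : C (c l) ≠ 0 := C_ne_zero.2 hc
      rw [e, rootMultiplicity_mul (mul_ne_zero hne ih2), rootMultiplicity_C, zero_add,
        natDegree_C_mul hc, ih1, ih3]
      refine ⟨?_, mul_ne_zero hne ih2, ?_⟩
      · rw [through, through, filter_insert, if_neg fun h => h.1 ha]
      · rw [filter_insert, if_neg fun h => h ha]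
    · have e : C (a l) * X + C (c l) = C (a l) * (X - C (-c l / a l)) := by
        rw [mul_sub, ← C_mul, mul_div_cancel₀ _ ha, map_neg, sub_neg_eq_add]
      have hne : C (a l) * (X - C (-c l / a l)) ≠ 0 :=
        mul_ne_zero (C_ne_zero.2 ha) (X_sub_C_ne_zero _)
      rw [e, rootMultiplicity_mul (mul_ne_zero hne ih2), natDegree_mul hne ih2, ih1, ih3,
        rootMultiplicity_mul hne, rootMultiplicity_C, zero_add, rootMultiplicity_X_sub_C,
        natDegree_C_mul ha, natDegree_X_sub_C]
      refine ⟨?_, mul_ne_zero hne ih2, ?_⟩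
      · rw [through, through, filter_insert]
        by_cases hx : x = -c l / a l
        · have h0 : a l * x + c l = 0 := by rw [hx, mul_div_cancel₀ _ ha, neg_add_cancel]
          rw [if_pos hx, if_pos ⟨ha, h0⟩, card_insert_of_notMem
            (fun h => hl (mem_filter.1 h).1), add_comm]
        · rw [if_neg hx, if_neg fun h => hx (by
            rw [eq_div_iff ha]; linear_combination h.2), zero_add]
      · rw [filter_insert, if_pos ha, card_insert_of_notMem
          (fun h => hl (mem_filter.1 h).1), add_comm]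

/-- The linear forms and `U` cover the plane off the axis: the three possibilities on the axis. -/
theorem axis_cases (s : Finset ι) (a b c : ι → ZMod p) (hac : ∀ l ∈ s, a l = 0 → c l ≠ 0)
    (U : Finset (ZMod p × ZMod p)) (d : ℕ) (hU : #U < (d + 1) * (d + 1))
    (he : 2 * d + #s + 1 < 2 * p)
    (hcov : ∀ x y : ZMod p, y ≠ 0 → (x, y) ∈ U ∨ ∃ l ∈ s, a l * x + b l * y + c l = 0) :
    #(s.filter fun l => a l ≠ 0) ≤ 2 * d + #s + 1 - p ∨
      (∃ x, p ≤ #(through s a c x) + 2 * d) ∨
      #(s.filter fun l => a l ≠ 0) ≤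
        #(univ.filter fun x => through s a c x ≠ ∅) + 2 * (2 * d + #s + 1 - p) := by
  set T := Fin (d + 1) × Fin (d + 1)
  -- a curve through `U`
  obtain ⟨α, β, hne, hαβ⟩ := Fintype.exists_ne_map_eq_of_card_lt
    (fun (α : T → ZMod p) (u : U) => ∑ t : T, α t * (u.1.2 ^ t.2.val * u.1.1 ^ t.1.val)) (by
      simp only [Fintype.card_fun, Fintype.card_prod, Fintype.card_fin, Fintype.card_coe,
        ZMod.card, T]
      exact Nat.pow_lt_pow_right (Fact.out : p.Prime).one_lt hU)
  set γ := α - β with hγdef
  have hγU : ∀ u ∈ U, ∑ t : T, γ t * (u.2 ^ t.2.val * u.1 ^ t.1.val) = 0 := fun u hu => by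
    have := congrFun hαβ ⟨u, hu⟩
    simp only [hγdef, Pi.sub_apply, sub_mul, sum_sub_distrib] at this ⊢
    rw [this, sub_self]
  obtain ⟨t₀, ht₀, hmin⟩ := exists_min_image (univ.filter fun t : T => γ t ≠ 0)
    (fun t => t.2.val) <| by
      by_contra h
      rw [not_nonempty_iff_eq_empty, filter_eq_empty_iff] at h
      exact hne (sub_eq_zero.1 (funext fun t : T => not_not.1 (h (mem_univ t))))
  set j₀ := t₀.2.val
  set T' := univ.filter fun t : T => γ t ≠ 0 with hT'
  set A : ZMod p → (ZMod p)[X] := fun y =>
    ∑ t ∈ T', C (γ t) * (C (y ^ (t.2.val - j₀)) * X ^ t.1.val) with hA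
  set P : ZMod p → (ZMod p)[X] := fun y => ∏ l ∈ s, (C (a l) * X + C (b l * y + c l)) with hP
  have hvanish : ∀ x y, y ≠ 0 → (A y * P y).eval x = 0 := by
    intro x y hy
    rw [eval_mul]
    rcases hcov x y hy with hxy | ⟨l, hl, hl0⟩
    · refine mul_eq_zero_of_left ((mul_eq_zero.1 (?_ : y ^ j₀ * (A y).eval x = 0)).resolve_left
        (pow_ne_zero _ hy)) _
      rw [hA, eval_finsetSum, mul_sum]
      refine Eq.trans ?_ (hγU _ hxy)
      rw [hT', sum_filter]
      refine sum_congr rfl fun t _ => ?_
      split_ifs with h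
      · simp only [eval_mul, eval_C, eval_pow, eval_X]
        rw [← mul_assoc, mul_comm (y ^ j₀), mul_assoc, ← mul_assoc (y ^ j₀), ← pow_add,
          Nat.add_sub_cancel' (hmin t (mem_filter.2 ⟨mem_univ _, h⟩))]
      · simp only [not_not] at h; rw [h, zero_mul]
    · refine mul_eq_zero_of_right _ ?_
      rw [hP, eval_prod]
      refine prod_eq_zero hl ?_
      simp only [eval_add, eval_mul, eval_C, eval_X]
      linear_combination hl0
  -- the restriction to the axis
  set G := A 0 * P 0 with hG
  have hA0 : A 0 ≠ 0 := by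
    intro h
    have h1 := congrArg (fun q => q.coeff t₀.1.val) h
    simp only [hA, finsetSum_coeff, coeff_C_mul, coeff_X_pow, coeff_zero] at h1
    rw [sum_eq_single_of_mem t₀ ht₀ (fun t ht hne => ?_)] at h1
    · simp [j₀, (mem_filter.1 ht₀).2] at h1
    · rcases eq_or_ne t.2.val j₀ with hj | hj
      · rw [if_neg fun e => hne (Prod.ext (Fin.ext e.symm) (Fin.ext hj))]
        simp
      · rw [zero_pow (by have := hmin t ht; omega)]
        simp
  have hA0d : (A 0).natDegree ≤ d := natDegree_sum_le_of_forall_le _ _ fun t _ =>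
    (natDegree_C_mul_le _ _).trans ((natDegree_C_mul_le _ _).trans
      ((natDegree_X_pow_le _).trans (by omega)))
  have hP0 : P 0 = ∏ l ∈ s, (C (a l) * X + C (c l)) := by simp [hP]
  obtain ⟨-, hPne, hPdeg⟩ := le_rootMultiplicity_prod s a c hac 0
  set Q := ∑ y, A y * P y with hQdef
  have hQ : Q.natDegree ≤ 2 * d + #s - (p - 1) := by
    have e : Q = ∑ t ∈ T', C (γ t) *
        ∑ y, C (y ^ (t.2.val - j₀)) * X ^ t.1.val * P y := by
      rw [hQdef]
      simp only [hA, sum_mul, mul_sum, mul_assoc]
      exact sum_comm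
    rw [e]
    exact natDegree_sum_le_of_forall_le _ _ fun t _ =>
      (natDegree_C_mul_le _ _).trans ((natDegree_sum_prod_le s a b c _ _).trans (by omega))
  have hGd : G.natDegree ≤ 2 * d + #s := by
    rw [hG, natDegree_mul hA0 (hP0 ▸ hPne), hP0, hPdeg]
    have := card_filter_le s fun l => a l ≠ 0
    omega
  have hHvan : ∀ x, (Q - G).eval x = 0 := fun x => by
    rw [hQdef, ← add_sum_erase _ _ (mem_univ (0 : ZMod p)), hG, add_sub_cancel_left,
      eval_finsetSum]
    exact sum_eq_zero fun y hy => hvanish x y (ne_of_mem_erase hy)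
  obtain ⟨h, hh⟩ := X_pow_sub_X_dvd hHvan
  set e := 2 * d + #s + 1 - p with he'
  have hp1 : 1 < p := (Fact.out : p.Prime).one_lt
  have hhd : h.natDegree ≤ 2 * d + #s - p := by
    rcases eq_or_ne h 0 with rfl | h0
    · simp
    · have := congrArg natDegree hh
      rw [natDegree_mul (FiniteField.X_pow_card_sub_X_ne_zero _ hp1) h0,
        FiniteField.X_pow_card_sub_X_natDegree_eq _ hp1] at this
      have := natDegree_sub_le Q G
      omega
  have hGeq : G = X ^ p * (-h) + (Q + X * h) := by linear_combination -hh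
  have hgdeg : (Q + X * h).natDegree ≤ e := by
    rcases eq_or_ne h 0 with rfl | h0
    · rw [mul_zero, add_zero]; omega
    · have h1 := congrArg natDegree hh
      rw [natDegree_mul (FiniteField.X_pow_card_sub_X_ne_zero _ hp1) h0,
        FiniteField.X_pow_card_sub_X_natDegree_eq _ hp1] at h1
      have := natDegree_sub_le Q G
      refine (natDegree_add_le _ _).trans (max_le (by omega) ?_)
      rw [natDegree_mul X_ne_zero h0, natDegree_X]
      omega
  have hroot : ∀ x, rootMultiplicity x G = rootMultiplicity x (A 0) + #(through s a c x) := by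
    intro x
    rw [hG, rootMultiplicity_mul (mul_ne_zero hA0 (hP0 ▸ hPne)), hP0,
      (le_rootMultiplicity_prod s a c hac x).1]
  rcases lacunary_cases (f := -h) (g := Q + X * h) (e := e)
    (by rw [natDegree_neg]; omega) hgdeg (by omega) with h1 | ⟨x, hx⟩ | h1
  · rw [← hGeq, hG, natDegree_mul hA0 (hP0 ▸ hPne), hP0, hPdeg] at h1
    exact Or.inl (by omega)
  · rw [← hGeq, hroot] at hx
    refine Or.inr (Or.inl ⟨x, ?_⟩)
    have h2 := count_roots (A 0) (a := x)
    have h3 := Multiset.count_le_card x (A 0).roots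
    have h4 := card_roots' (A 0)
    omega
  · rw [← hGeq] at h1
    refine Or.inr (Or.inr ?_)
    rw [← sum_card_through, card_filter]
    calc ∑ x, #(through s a c x)
        ≤ ∑ x, ((if through s a c x ≠ ∅ then 1 else 0) + (rootMultiplicity x G - 1)) :=
          sum_le_sum fun x _ => by
            rw [hroot]
            split_ifs with hx
            · omega
            · simp only [not_not] at hx; simp [hx]
      _ ≤ _ := by rw [sum_add_distrib]; omega

end Vale.Agent.P045
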