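import Mathlib

/-!
# P045: lines covering almost all points of an affine plane form a near pencil

Pure double counting: if `n` lines of size `q` have excess `∑ (m x - 1) ≤ D * q`, then all but
`4 * D` of them are concurrent or parallel, once `q` is large compared with `D ^ 2`.
-/

open Finset
open scoped Classical

namespace Vale.Agent.P045

variable {P L C : Type*} [Fintype P] [DecidableEq P] [DecidableEq L] [DecidableEq C] {S : Finset L} {pts : L → Finset P} {cls : L → C} {q : ℕ}

/-- The number of chosen lines through a point. -/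
noncomputable def mult (S : Finset L) (pts : L → Finset P) (x : P) : ℕ :=
  #(S.filter fun l => x ∈ pts l)

/-- The excess of the chosen lines. -/
noncomputable def excess (S : Finset L) (pts : L → Finset P) : ℕ :=
  ∑ x, (mult S pts x - 1)

theorem sum_mult_mul (S : Finset L) (pts : L → Finset P) (f : P → ℕ) :
    ∑ x, mult S pts x * f x = ∑ l ∈ S, ∑ x ∈ pts l, f x := by
  simp only [mult, card_filter, sum_mul, ite_mul, one_mul, zero_mul]
  rw [sum_comm]
  exact sum_congr rfl fun l _ => by rw [← sum_filter, filter_mem_eq_inter, univ_inter]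

/-- The excess plus the covered points is the number of incidences. -/
theorem excess_add_covered (hcard : ∀ l ∈ S, #(pts l) = q) :
    excess S pts + #(univ.filter fun x => mult S pts x ≠ 0) = #S * q := by
  have h := sum_mult_mul S pts fun _ => 1
  simp only [mul_one, sum_const, smul_eq_mul] at h
  rw [sum_congr rfl hcard, sum_const, smul_eq_mul] at h
  rw [← h, excess, card_filter, ← sum_add_distrib]
  exact sum_congr rfl fun x _ => by split_ifs <;> omega

/-- Pairs of lines of different classes are paid for by the excess. -/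
theorem nonparallel_le (hmeet : ∀ l ∈ S, ∀ l' ∈ S, cls l ≠ cls l' → (pts l ∩ pts l').Nonempty)
    {M : ℕ} (hpt : ∀ x, mult S pts x ≤ M) :
    ∑ l ∈ S, #(S.filter fun l' => cls l' ≠ cls l) ≤ M * excess S pts := by
  calc ∑ l ∈ S, #(S.filter fun l' => cls l' ≠ cls l)
      ≤ ∑ l ∈ S, ∑ x ∈ pts l, (mult S pts x - 1) := by
        refine sum_le_sum fun l hl => ?_
        calc #(S.filter fun l' => cls l' ≠ cls l)
            ≤ ∑ l' ∈ S.erase l, #(pts l ∩ pts l') := by
              rw [card_filter]
              rw [← add_sum_erase _ _ hl, if_neg (by simp), zero_add]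
              refine sum_le_sum fun l' hl' => ?_
              split_ifs with h
              · exact (hmeet l hl l' (mem_erase.1 hl').2 (Ne.symm h)).card_pos
              · exact Nat.zero_le _
          _ = ∑ x ∈ pts l, (mult S pts x - 1) := by
              simp only [← filter_mem_eq_inter, card_filter]
              rw [sum_comm]
              refine sum_congr rfl fun x hx => ?_
              rw [← card_filter, filter_erase, card_erase_of_mem (mem_filter.2 ⟨hl, hx⟩)]
              rfl
    _ = ∑ x, mult S pts x * (mult S pts x - 1) := (sum_mult_mul S pts _).symm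
    _ ≤ ∑ x, M * (mult S pts x - 1) := sum_le_sum fun x _ => Nat.mul_le_mul_right _ (hpt x)
    _ = M * excess S pts := by rw [excess, mul_sum]

/-- The lines outside a pencil with centre `o` pay for the excess. -/
theorem outside_point_le (hmeet : ∀ l ∈ S, ∀ l' ∈ S, cls l ≠ cls l' → (pts l ∩ pts l').Nonempty)
    (o : P) (hcls : ∀ l ∈ S, ∀ l' ∈ S, o ∈ pts l → o ∈ pts l' → cls l = cls l' → l = l')
    (hone : ∀ l ∈ S, ∀ l' ∈ S, l ≠ l' → #(pts l ∩ pts l') ≤ 1) :
    (#S - mult S pts o) * (mult S pts o - 1) ≤ excess S pts := by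
  set A := S.filter fun l => o ∈ pts l with hA
  set B := S.filter fun l => o ∉ pts l with hB
  have hAB : #S - mult S pts o = #B := by
    have := card_filter_add_card_filter_not (s := S) (fun l => o ∈ pts l)
    simp only [mult, hB] at this ⊢
    omega
  have hsub : mult S pts o = #A := rfl
  calc (#S - mult S pts o) * (mult S pts o - 1) = ∑ l ∈ B, (#A - 1) := by
        rw [hAB, hsub, sum_const, smul_eq_mul]
    _ ≤ ∑ l ∈ B, #(A.filter fun a => cls a ≠ cls l) := by
        refine sum_le_sum fun l _ => ?_
        have h1 : #(A.filter fun a => cls a = cls l) ≤ 1 := card_le_one.2 fun a ha b hb => by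
          simp only [hA, mem_filter] at ha hb
          exact hcls a ha.1.1 b hb.1.1 ha.1.2 hb.1.2 (ha.2.trans hb.2.symm)
        have := card_filter_add_card_filter_not (s := A) (fun a => cls a = cls l)
        simp only [ne_eq] at this ⊢
        omega
    _ ≤ ∑ l ∈ B, #((pts l).filter fun x => x ≠ o ∧ ∃ a ∈ A, x ∈ pts a) := by
        refine sum_le_sum fun l hl => ?_
        have hl' := mem_filter.1 hl
        have hm : ∀ a ∈ A.filter (fun a => cls a ≠ cls l), ∃ x, x ∈ pts a ∩ pts l := fun a ha =>
          hmeet a (mem_filter.1 (mem_filter.1 ha).1).1 l hl'.1 (mem_filter.1 ha).2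
        choose g hg using hm
        refine card_le_card_of_injOn (fun a => if h : a ∈ A.filter (fun a => cls a ≠ cls l) then
          g a h else o) (fun a ha => ?_) fun a ha b hb e => ?_
        · simp only [mem_coe] at ha ⊢
          simp only [dif_pos ha]
          obtain ⟨h1, h2⟩ := mem_inter.1 (hg a ha)
          exact mem_filter.2 ⟨h2, fun e => hl'.2 (e ▸ h2), a, (mem_filter.1 ha).1, h1⟩
        · simp only [mem_coe] at ha hb
          simp only [dif_pos ha, dif_pos hb] at e
          by_contra hne
          obtain ⟨haS, hao⟩ := mem_filter.1 (mem_filter.1 ha).1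
          obtain ⟨hbS, hbo⟩ := mem_filter.1 (mem_filter.1 hb).1
          have hx := (mem_inter.1 (hg a ha))
          have hy := (mem_inter.1 (hg b hb))
          rw [← e] at hy
          have hxo : g a ha ≠ o := fun e' => hl'.2 (e' ▸ hx.2)
          exact absurd (card_le_one.1 (hone a haS b hbS hne) _ (mem_inter.2 ⟨hx.1, hy.1⟩)
            o (mem_inter.2 ⟨hao, hbo⟩)) hxo
    _ = ∑ x ∈ univ.filter (fun x => x ≠ o ∧ ∃ a ∈ A, x ∈ pts a),
          #(B.filter fun l => x ∈ pts l) := by
        simp only [card_eq_sum_ones]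
        refine sum_comm' fun l x => ?_
        simp only [mem_filter, mem_univ, true_and]
        tauto
    _ ≤ excess S pts := by
        refine le_trans (sum_le_sum fun x hx => ?_) (sum_le_sum_of_subset (subset_univ _))
        obtain ⟨-, -, a, ha, hxa⟩ := (mem_filter.1 hx)
        have hsub : B.filter (fun l => x ∈ pts l) ⊆ (S.filter fun l => x ∈ pts l).erase a := by
          intro l hl
          simp only [hB, mem_filter] at hl
          exact mem_erase.2 ⟨fun e => hl.1.2 (e ▸ (mem_filter.1 ha).2),
            mem_filter.2 ⟨hl.1.1, hl.2⟩⟩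
        have := card_le_card hsub
        rwa [card_erase_of_mem (mem_filter.2 ⟨(mem_filter.1 ha).1, hxa⟩)] at this

/-- The lines outside a parallel class pay for the excess. -/
theorem outside_class_le (hmeet : ∀ l ∈ S, ∀ l' ∈ S, cls l ≠ cls l' → (pts l ∩ pts l').Nonempty)
    (hdisj : ∀ l ∈ S, ∀ l' ∈ S, l ≠ l' → cls l = cls l' → Disjoint (pts l) (pts l')) (c : C) :
    (#S - #(S.filter fun l => cls l = c)) * #(S.filter fun l => cls l = c) ≤ excess S pts := by
  set A := S.filter fun l => cls l = c with hA
  set B := S.filter fun l => cls l ≠ c with hB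
  have hAB : #S - #A = #B := by
    have := card_filter_add_card_filter_not (s := S) (fun l => cls l = c)
    simp only [hA, hB, ne_eq] at this ⊢
    omega
  calc (#S - #A) * #A = ∑ l ∈ B, #A := by rw [hAB, sum_const, smul_eq_mul]
    _ ≤ ∑ l ∈ B, #((pts l).filter fun x => ∃ a ∈ A, x ∈ pts a) := by
        refine sum_le_sum fun l hl => ?_
        have hl' := mem_filter.1 hl
        have hm : ∀ a ∈ A, ∃ x, x ∈ pts a ∩ pts l := fun a ha =>
          hmeet a (mem_filter.1 ha).1 l hl'.1 ((mem_filter.1 ha).2 ▸ hl'.2.symm)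
        choose g hg using hm
        rw [← card_attach]
        refine card_le_card_of_injOn (fun a => g a.1 a.2) (fun a _ => ?_) fun a _ b _ e => ?_
        · exact mem_filter.2 ⟨(mem_inter.1 (hg _ a.2)).2, a.1, a.2, (mem_inter.1 (hg _ a.2)).1⟩
        · simp only at e
          refine Subtype.ext ?_
          by_contra hne
          exact disjoint_left.1 (hdisj a.1 (mem_filter.1 a.2).1 b.1 (mem_filter.1 b.2).1 hne
            ((mem_filter.1 a.2).2.trans (mem_filter.1 b.2).2.symm))
            (mem_inter.1 (hg _ a.2)).1 (e ▸ (mem_inter.1 (hg _ b.2)).1)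
    _ = ∑ x ∈ univ.filter (fun x => ∃ a ∈ A, x ∈ pts a), #(B.filter fun l => x ∈ pts l) := by
        simp only [card_eq_sum_ones]
        refine sum_comm' fun l x => ?_
        simp only [mem_filter, mem_univ, true_and]
        tauto
    _ ≤ excess S pts := by
        refine le_trans (sum_le_sum fun x hx => ?_) (sum_le_sum_of_subset (subset_univ _))
        obtain ⟨-, a, ha, hxa⟩ := (mem_filter.1 hx)
        have hsub : B.filter (fun l => x ∈ pts l) ⊆ (S.filter fun l => x ∈ pts l).erase a := by
          intro l hl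
          simp only [hB, mem_filter] at hl
          exact mem_erase.2 ⟨fun e => hl.1.2 (e ▸ (mem_filter.1 ha).2),
            mem_filter.2 ⟨hl.1.1, hl.2⟩⟩
        have := card_le_card hsub
        rwa [card_erase_of_mem (mem_filter.2 ⟨(mem_filter.1 ha).1, hxa⟩)] at this

/-- A small excess forces a near pencil or a near parallel class. -/
theorem near_pencil
    (hone : ∀ l ∈ S, ∀ l' ∈ S, l ≠ l' → #(pts l ∩ pts l') ≤ 1)
    (hmeet : ∀ l ∈ S, ∀ l' ∈ S, cls l ≠ cls l' → (pts l ∩ pts l').Nonempty)
    (hdisj : ∀ l ∈ S, ∀ l' ∈ S, l ≠ l' → cls l = cls l' → Disjoint (pts l) (pts l'))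
    {D : ℕ} (hE : excess S pts ≤ D * q) (hD : 1 ≤ D) (hn : q ≤ 2 * #S)
    (hq : 200 * D * D ≤ q) :
    (∃ o, #S - mult S pts o ≤ 4 * D) ∨ ∃ c, #S - #(S.filter fun l => cls l = c) ≤ 4 * D := by
  set n := #S with hn'
  have hpos : 0 < n := by nlinarith
  obtain ⟨l₀, hl₀⟩ := card_pos.1 (hn' ▸ hpos)
  set E := excess S pts
  -- some point or class has more than `6 * D + 1` of the lines
  have hbig : (∃ o, 6 * D + 1 < mult S pts o) ∨ ∃ c, 6 * D + 1 < #(S.filter fun l => cls l = c) := by
    by_contra hno
    simp only [not_or, not_exists, not_lt] at hno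
    have h := nonparallel_le hmeet hno.1
    have hlow : ∑ _l ∈ S, (n - (6 * D + 1)) ≤ ∑ l ∈ S, #(S.filter fun l' => cls l' ≠ cls l) :=
      sum_le_sum fun l _ => by
        have h1 := hno.2 (cls l)
        have := card_filter_add_card_filter_not (s := S) (fun l' => cls l' = cls l)
        simp only [ne_eq] at this ⊢
        omega
    rw [sum_const, smul_eq_mul, ← hn'] at hlow
    have h2 : n * (n - (6 * D + 1)) ≤ (6 * D + 1) * (D * q) :=
      hlow.trans (h.trans (Nat.mul_le_mul_left _ hE))
    rcases Nat.le_total n (6 * D + 1) with h3 | h3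
    · nlinarith
    · obtain ⟨k, hk⟩ := Nat.exists_eq_add_of_le h3
      rw [hk, Nat.add_sub_cancel_left] at h2
      nlinarith
  rcases hbig with ⟨o, ho⟩ | ⟨c, hc⟩
  · left
    have hcls : ∀ l ∈ S, ∀ l' ∈ S, o ∈ pts l → o ∈ pts l' → cls l = cls l' → l = l' :=
      fun l hl l' hl' h1 h2 e => by
        by_contra hne
        exact disjoint_left.1 (hdisj l hl l' hl' hne e) h1 h2
    have h := (outside_point_le hmeet o hcls hone).trans hE
    refine ⟨o, ?_⟩
    have hM : mult S pts o ≤ n := card_filter_le _ _
    obtain ⟨b, hb⟩ := Nat.exists_eq_add_of_le hM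
    obtain ⟨a, ha⟩ := Nat.exists_eq_add_of_le ho
    rw [← hn'] at h
    rw [hb, Nat.add_sub_cancel_left] at h ⊢
    rw [ha] at hb h
    by_contra hbad
    rw [show (6 * D + 1).succ + a - 1 = 6 * D + 1 + a by omega] at h
    nlinarith [Nat.zero_le a]
  · right
    have h := (outside_class_le hmeet hdisj c).trans hE
    refine ⟨c, ?_⟩
    have hM : #(S.filter fun l => cls l = c) ≤ n := card_filter_le _ _
    obtain ⟨b, hb⟩ := Nat.exists_eq_add_of_le hM
    obtain ⟨a, ha⟩ := Nat.exists_eq_add_of_le hc
    rw [← hn'] at h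
    rw [hb, Nat.add_sub_cancel_left] at h ⊢
    rw [ha] at hb h
    by_contra hbad
    nlinarith [Nat.zero_le a]

end Vale.Agent.P045
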